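import Claimed.Agent.R316.Base.SV.Api
import Claimed.Agent.R316.B5.Psh
import Claimed.Agent.R316.CW.MatAlg

/-!
# Row 316, S7-3 (static distortion, Lemma 7.3), geometric half 3: the moving ball envelope (`charts.tex` l.364-434)

Owner: helper84.  ALL PROVED (no open proof left in this file; inputs: G0 `Base/Metric`, `exists_minGeod` (G4), `sv4` (G5), `pshOn_of_support` (B5)).

`𝓑` is a complex manifold whose carrier is the open connected set `B ⊆ ℂ^ι`, with the global parametrisation `id` (in the application `stdMfd (ball 0 r)`), `h` a Kaehler metric on it with POSITIVE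
bisectional curvature (NOT complete), `ψ` smooth on `B`, `U ⊆ B` open such that the closed metric balls `hcball 𝓑 h z (2 r₀)`, `z ∈ U`, are compact.
`env 𝓑 h ψ r₀ z = max {ψ y : d_h(z, y) ≤ r₀}`.

* SD-GEO-6 (metric topology, uses only G0 `Base/Metric/Api.lean` and `exists_minGeod`): `isCompact_hcball`, `self_mem`, `le_env`, `exists_max`, `env_le`, `env_usc`, `env_lsc`, `env_continuousOn`.
  - usc at `z`: if `z_k → z` and `y_k` is a maximiser for `z_k`, then `y_k ∈ hcball z (2 r₀)` for late `k` (triangle inequality, `continuousOn_hdist`), a subsequence converges to `y`, `d(z, y) ≤ r₀` by continuity, `limsup Ψ(z_k) ≤ ψ y ≤ Ψ z`.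
    (Filter version: for `ε > 0` the set `{(z', y) : d(z', y) ≤ r₀, ψ y ≥ Ψ z + ε}` is closed in `U × hcball z (2 r₀)` and does not meet `{z} × …`; tube lemma `generalized_tube_lemma` / `IsCompact.eventually_forall_of_forall_eventually`.)
  - lsc at `z`: `y` a maximiser, `l = d(z, y)`.  If `l < r₀`: `y` is admissible for all nearby centres.  If `l = r₀`: `γ` minimizing from `z` to `y` (`exists_minGeod`), `y_ε = γ (l - ε)`, `d(z, y_ε) = l - ε < r₀`, `ψ (y_ε) → ψ y`.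
* SD-GEO-7: `env_support` (from `sv4`, G5): `y₀` a maximiser for `z₀`.  If `y₀ = z₀`: `X' = X`, `q = 0`.  Otherwise `l = d(z₀, y₀) ∈ (0, r₀]`, `exists_minGeod`, `sv4` with `Φ = Ψ = id`; `y₀ + a X' + a² q ∈ B` and `z₀ + a X ∈ U` for small `a`; `le_env`.
* SD-GEO-8 (pure calculus): `contDiffAt_comp_quadratic`, `laplacian_comp_quadratic` (e.g. `levi_comp_hol` for `τ : CE (Fin 1) → CE ι`, `τ ζ = y + ζ₀ X + ζ₀² q`, and `qf_levi_eq_laplacian` on `CE (Fin 1)`; or directly from `ls_laplacian_eq` and the chain rule: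
  the second order term `2 q` contributes `df(2q) + df(I² 2 q) = 0`).
* `env_strict`, `env_psh`: glue (proved).
-/

set_option autoImplicit false
set_option linter.unusedSectionVars false
open scoped ContDiff ComplexOrder Topology Matrix
open Filter

namespace Claimed.Agent.R316.SD

variable {ι : Type} [Fintype ι] [DecidableEq ι]

theorem contDiffAt_comp_quadratic {f : CE ι → ℝ} {y : CE ι} (hf : ContDiffAt ℝ 2 f y) (X q : CE ι) :
    ContDiffAt ℝ 2 (fun a : ℂ => f (y + a • X + a ^ 2 • q)) 0 := by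
  have hc : ContDiff ℝ 2 (fun a : ℂ => y + a • X + a ^ 2 • q) :=
    (contDiff_const.add (contDiff_id.smul contDiff_const)).add ((contDiff_id.pow 2).smul contDiff_const)
  have hf' : ContDiffAt ℝ 2 f (y + (0 : ℂ) • X + (0 : ℂ) ^ 2 • q) := by simpa using hf
  exact hf'.comp (0 : ℂ) hc.contDiffAt

/-- the Laplacian of `f` along a holomorphic curve only sees the first jet of the curve. -/
theorem laplacian_comp_quadratic {f : CE ι → ℝ} {y : CE ι} (hf : ContDiffAt ℝ 2 f y) (X q : CE ι) :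
    Laplacian.laplacian (fun a : ℂ => f (y + a • X + a ^ 2 • q)) 0 = 4 * qf (levi f y) X := by
  set p : CE (Fin 1) →L[ℂ] ℂ := EuclideanSpace.proj (0 : Fin 1) with hp
  set τ : CE (Fin 1) → CE ι := fun ζ => y + p ζ • X + (p ζ) ^ 2 • q with hτ
  have hd : ∀ ζ, HasFDerivAt τ (p.smulRight X + ((2 • (p ζ) ^ (2 - 1)) • p).smulRight q) ζ := by
    intro ζ
    have h1 : HasFDerivAt (fun ζ => p ζ) p ζ := p.hasFDerivAt
    exact ((h1.smul_const X).const_add y).add ((h1.pow 2).smul_const q)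
  have hτ0 : τ 0 = y := by simp [hτ]
  have hf' : ContDiffAt ℝ 2 f (τ 0) := by rwa [hτ0]
  have hτc : ContDiff ℝ 2 τ := by
    have hpc : ContDiff ℝ 2 (fun ζ => p ζ) := (p.restrictScalars ℝ).contDiff
    exact (contDiff_const.add (hpc.smul contDiff_const)).add ((hpc.pow 2).smul contDiff_const)
  have hF : ContDiffAt ℝ 2 (fun w => f (τ w)) 0 := hf'.comp 0 hτc.contDiffAt
  have h1 := qf_levi_comp_hol τ f (Eventually.of_forall fun ζ => (hd ζ).differentiableAt) hf'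
    (fun j => (eb (0 : Fin 1) : CE (Fin 1)) j)
  have h2 := qf_levi_eq_laplacian hF (eb (0 : Fin 1))
  have hpe : p (eb (0 : Fin 1)) = 1 := by
    simp [hp, eb]
  have e1 : (jac τ 0).mulVec (fun j => (eb (0 : Fin 1) : CE (Fin 1)) j) = X := by
    funext k
    rw [jac_mulVec, (hd 0).fderiv]
    simp [hpe]
  have e2 : (fun ζ : ℂ => f (τ (0 + ζ • eb (0 : Fin 1)))) = fun a : ℂ => f (y + a • X + a ^ 2 • q) := by
    funext a
    simp [hτ, hpe]
  rw [e1, hτ0] at h1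
  rw [e2, h1] at h2
  linarith

/-! ### the envelope -/

/-- the moving ball envelope. -/
noncomputable def env (𝓑 : CMfd (CE ι) ι) (h : HFam (CE ι) ι) (ψ : CE ι → ℝ) (r₀ : ℝ) (z : CE ι) : ℝ :=
  sSup (ψ '' hcball 𝓑 h z r₀)

/-- the hypotheses. -/
structure EnvSetting (𝓑 : CMfd (CE ι) ι) (h : HFam (CE ι) ι) (B U : Set (CE ι)) (ψ : CE ι → ℝ) (r₀ : ℝ) : Prop where
  kahler : IsKahler 𝓑 h
  bisec : BisecPos 𝓑 h
  conn : IsConnected B
  carrier : 𝓑.carrier = B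
  hol_id : 𝓑.IsHol id B
  r₀_pos : 0 < r₀
  ψ_smooth : ContDiffOn ℝ ∞ ψ B
  U_open : IsOpen U
  U_sub : U ⊆ B
  compact : ∀ z ∈ U, IsCompact (hcball 𝓑 h z (2 * r₀))

namespace EnvSetting

variable {𝓑 : CMfd (CE ι) ι} {h : HFam (CE ι) ι} {B U : Set (CE ι)} {ψ : CE ι → ℝ} {r₀ : ℝ}
  (E : EnvSetting 𝓑 h B U ψ r₀)

include E

theorem isOpen_B : IsOpen B := (𝓑.isParam E.hol_id).isOpen

/-! #### SD-GEO-6 -/

theorem isMetric : IsMetric 𝓑 h := E.kahler.toIsMetric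

theorem conn' : IsConnected 𝓑.carrier := E.carrier ▸ E.conn

theorem mem_carrier {z : CE ι} (hz : z ∈ U) : z ∈ 𝓑.carrier := E.carrier ▸ E.U_sub hz

theorem ψ_cont : ContinuousOn ψ 𝓑.carrier := E.carrier ▸ E.ψ_smooth.continuousOn

theorem isCompact_hcball {z : CE ι} (hz : z ∈ U) {R : ℝ} (hR : R ≤ 2 * r₀) : IsCompact (hcball 𝓑 h z R) := by
  obtain ⟨F, hF, hFe⟩ := exists_isClosed_hcball E.isMetric E.conn' (E.mem_carrier hz) R
  exact g0_isCompact_of_subset (E.compact z hz) hF hFe (hcball_subset_carrier _ _ _ _) (hcball_mono _ _ _ hR)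

theorem self_mem {z : CE ι} (hz : z ∈ U) : z ∈ hcball 𝓑 h z r₀ :=
  ⟨E.mem_carrier hz, by rw [hdist_self (E.mem_carrier hz)]; exact E.r₀_pos.le⟩

theorem r₀_le : r₀ ≤ 2 * r₀ := by have := E.r₀_pos; linarith

theorem le_env {z : CE ι} (hz : z ∈ U) {y : CE ι} (hy : y ∈ hcball 𝓑 h z r₀) : ψ y ≤ env 𝓑 h ψ r₀ z :=
  le_csSup ((E.isCompact_hcball hz E.r₀_le).bddAbove_image (E.ψ_cont.mono (hcball_subset_carrier _ _ _ _)))
    ⟨y, hy, rfl⟩

theorem exists_max {z : CE ι} (hz : z ∈ U) : ∃ y ∈ hcball 𝓑 h z r₀, env 𝓑 h ψ r₀ z = ψ y :=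
  (E.isCompact_hcball hz E.r₀_le).exists_sSup_image_eq ⟨z, E.self_mem hz⟩
    (E.ψ_cont.mono (hcball_subset_carrier _ _ _ _))

theorem env_le {z : CE ι} (hz : z ∈ U) {m : ℝ} (hm : ∀ y ∈ B, ψ y ≤ m) : env 𝓑 h ψ r₀ z ≤ m := by
  obtain ⟨y, hy, he⟩ := E.exists_max hz
  rw [he]
  exact hm y (E.carrier ▸ hy.1)

/-- small metric balls are neighbourhoods within `U`. -/
theorem hball_mem_nhdsWithin {z : CE ι} (hz : z ∈ U) {η : ℝ} (hη : 0 < η) : hball 𝓑 h z η ∈ 𝓝[U] z :=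
  nhdsWithin_mono z (fun _ hw => E.mem_carrier hw)
    ((hasBasis_nhdsWithin_hball E.isMetric E.conn' (E.mem_carrier hz)).mem_of_mem hη)

theorem env_usc : UpperSemicontinuousOn (env 𝓑 h ψ r₀) U := by
  intro z hz m hm
  have hm0 := E.isMetric
  have hc0 := E.conn'
  have hzc := E.mem_carrier hz
  have hr := E.r₀_pos
  set K := hcball 𝓑 h z (2 * r₀) with hK
  have hKc : IsCompact K := E.compact z hz
  have hKsub : K ⊆ 𝓑.carrier := hcball_subset_carrier _ _ _ _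
  set C := K ∩ ψ ⁻¹' Set.Ici m with hC
  have hCc : IsCompact C :=
    hKc.of_isClosed_subset ((E.ψ_cont.mono hKsub).preimage_isClosed_of_isClosed hKc.isClosed isClosed_Ici)
      Set.inter_subset_left
  have hfar : ∀ y ∈ C, r₀ < hdist 𝓑 h z y := by
    intro y hy
    by_contra hcon
    have h1 := E.le_env hz (y := y) ⟨hKsub hy.1, not_lt.1 hcon⟩
    have h2 : m ≤ ψ y := hy.2
    linarith
  obtain ⟨η, hη, hηC⟩ : ∃ η : ℝ, 0 < η ∧ ∀ y ∈ C, r₀ + η ≤ hdist 𝓑 h z y := by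
    rcases C.eq_empty_or_nonempty with he | hne
    · exact ⟨1, one_pos, fun y hy => by rw [he] at hy; exact hy.elim⟩
    · obtain ⟨y₁, hy₁, hmin⟩ := hCc.exists_isMinOn hne
        ((continuousOn_hdist_right hm0 hc0 hzc).mono (Set.inter_subset_left.trans hKsub))
      refine ⟨hdist 𝓑 h z y₁ - r₀, by linarith [hfar y₁ hy₁], fun y hy => ?_⟩
      have : hdist 𝓑 h z y₁ ≤ hdist 𝓑 h z y := hmin hy
      linarith
  filter_upwards [E.hball_mem_nhdsWithin hz (lt_min hη hr), self_mem_nhdsWithin] with z' hz' hz'U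
  obtain ⟨y', hy', he⟩ := E.exists_max hz'U
  rw [he]
  by_contra hcon
  have h1 : hdist 𝓑 h z y' ≤ hdist 𝓑 h z z' + hdist 𝓑 h z' y' := hdist_triangle hm0 hc0 hzc hz'.1 hy'.1
  have h2 : hdist 𝓑 h z z' < min η r₀ := hz'.2
  have h3 : hdist 𝓑 h z' y' ≤ r₀ := hy'.2
  have h4 := min_le_left η r₀
  have h5 := min_le_right η r₀
  have hy'K : y' ∈ K := ⟨hy'.1, by linarith⟩
  have := hηC y' ⟨hy'K, not_lt.1 hcon⟩
  linarith

theorem env_lsc : LowerSemicontinuousOn (env 𝓑 h ψ r₀) U := by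
  intro z hz m hm
  have hm0 := E.isMetric
  have hc0 := E.conn'
  have hzc := E.mem_carrier hz
  have hr := E.r₀_pos
  obtain ⟨y, hy, he⟩ := E.exists_max hz
  rw [he] at hm
  -- an interior point with a large value
  obtain ⟨y₁, hy₁c, hy₁d, hy₁m⟩ : ∃ y₁ ∈ 𝓑.carrier, hdist 𝓑 h z y₁ < r₀ ∧ m < ψ y₁ := by
    rcases hy.2.lt_or_eq with hlt | heq
    · exact ⟨y, hy.1, hlt, hm⟩
    · have hcomp : IsCompact (hcball 𝓑 h z (hdist 𝓑 h z y)) := E.isCompact_hcball hz (by rw [heq]; exact E.r₀_le)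
      obtain ⟨γ, hγ0, hγl, hγm, hγd⟩ := exists_metric_segment hm0 hc0 hzc hy.1 hcomp
      rw [heq] at hγl hγm hγd
      have hnb : {p | m < ψ p} ∈ 𝓝[𝓑.carrier] y := (E.ψ_cont y hy.1) (lt_mem_nhds hm)
      obtain ⟨ρ, hρ, hρsub⟩ := (hasBasis_nhdsWithin_hball hm0 hc0 hy.1).mem_iff.1 hnb
      have hmin0 : 0 < min (ρ / 2) (r₀ / 2) := lt_min (by positivity) (by positivity)
      have hmin1 := min_le_left (ρ / 2) (r₀ / 2)
      have hmin2 := min_le_right (ρ / 2) (r₀ / 2)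
      have hs : r₀ - min (ρ / 2) (r₀ / 2) ∈ Set.Icc 0 r₀ := ⟨by linarith, by linarith⟩
      have e1 := hγd 0 ⟨le_rfl, hr.le⟩ _ hs
      have e2 := hγd r₀ ⟨hr.le, le_rfl⟩ _ hs
      rw [hγ0, zero_sub, abs_neg, abs_of_nonneg hs.1] at e1
      rw [hγl, sub_sub_cancel, abs_of_pos hmin0] at e2
      exact ⟨_, hγm _ hs, by rw [e1]; linarith, hρsub ⟨hγm _ hs, by rw [e2]; linarith⟩⟩
  have hgap : 0 < r₀ - hdist 𝓑 h z y₁ := by linarith
  filter_upwards [E.hball_mem_nhdsWithin hz hgap, self_mem_nhdsWithin] with z' hz' hz'U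
  refine hy₁m.trans_le (E.le_env hz'U ⟨hy₁c, ?_⟩)
  have h1 : hdist 𝓑 h z' y₁ ≤ hdist 𝓑 h z' z + hdist 𝓑 h z y₁ := hdist_triangle hm0 hc0 hz'.1 hzc hy₁c
  have h2 : hdist 𝓑 h z z' < r₀ - hdist 𝓑 h z y₁ := hz'.2
  rw [hdist_comm hm0 z' z] at h1
  linarith

theorem env_continuousOn : ContinuousOn (env 𝓑 h ψ r₀) U :=
  continuousOn_iff_lower_upperSemicontinuousOn.2 ⟨E.env_lsc, E.env_usc⟩

/-! #### SD-GEO-7 -/

/-- **admissible holomorphic end point germs** (`charts.tex` l.376-418). -/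
theorem env_support {z₀ : CE ι} (hz₀ : z₀ ∈ U) (X : CE ι) :
    ∃ y₀ ∈ hcball 𝓑 h z₀ r₀, ∃ X' q : CE ι, qf (h id y₀) X' = qf (h id z₀) X ∧ env 𝓑 h ψ r₀ z₀ = ψ y₀ ∧
      ∀ᶠ a : ℂ in 𝓝 0, ψ (y₀ + a • X' + a ^ 2 • q) ≤ env 𝓑 h ψ r₀ (z₀ + a • X) := by
  have hm0 := E.isMetric
  have hc0 := E.conn'
  have hzc := E.mem_carrier hz₀
  obtain ⟨y₀, hy₀, he⟩ := E.exists_max hz₀
  have hevU : ∀ᶠ a : ℂ in 𝓝 0, z₀ + a • X ∈ U := by
    have hc : ContinuousAt (fun a : ℂ => z₀ + a • X) 0 := by fun_prop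
    exact hc.eventually_mem (by simpa using E.U_open.mem_nhds hz₀)
  rcases (hdist_nonneg 𝓑 h z₀ y₀).eq_or_lt with h0 | h0
  · have hyz : z₀ = y₀ := (hdist_eq_zero_iff hm0 hc0 hzc hy₀.1).1 h0.symm
    subst hyz
    refine ⟨z₀, hy₀, X, 0, rfl, he, ?_⟩
    filter_upwards [hevU] with a ha
    rw [smul_zero, add_zero]
    exact E.le_env ha (E.self_mem ha)
  · obtain ⟨γ, hγ⟩ := exists_minGeod E.kahler hc0 hzc hy₀.1 (E.isCompact_hcball hz₀ (hy₀.2.trans E.r₀_le))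
    have hyB : y₀ ∈ B := E.carrier ▸ hy₀.1
    obtain ⟨X', q, hq, hev⟩ := sv4 E.kahler hc0 E.bisec hγ h0 E.hol_id E.hol_id (E.U_sub hz₀) hyB rfl rfl X
    refine ⟨y₀, hy₀, X', q, hq, he, ?_⟩
    have hevB : ∀ᶠ a : ℂ in 𝓝 0, y₀ + a • X' + a ^ 2 • q ∈ B := by
      have hc : ContinuousAt (fun a : ℂ => y₀ + a • X' + a ^ 2 • q) 0 := by fun_prop
      exact hc.eventually_mem (by simpa using E.isOpen_B.mem_nhds hyB)
    filter_upwards [hevU, hevB, hev] with a ha hb hd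
    exact E.le_env ha ⟨E.carrier ▸ hb, hd.trans hy₀.2⟩

/-! #### glue -/

/-- **(7.7), strict form**: if `dd ψ ≥ κ h` on the balls with centres in `U'` and `dd u ≤ κ h` on `U'`, then `Ψ - u` is psh on `U'`. -/
theorem env_strict {U' : Set (CE ι)} (hU' : IsOpen U') (hsub : U' ⊆ U) {κ : ℝ} {u : CE ι → ℝ}
    (h1 : ∀ z ∈ U', ∀ y ∈ hcball 𝓑 h z r₀, ∀ X : ι → ℂ, κ * qf (h id y) X ≤ qf (levi ψ y) X)
    (hu : ContDiffOn ℝ 2 u U') (h2 : ∀ z ∈ U', ∀ X : ι → ℂ, qf (levi u z) X ≤ κ * qf (h id z) X) :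
    PshOn U' (fun z => env 𝓑 h ψ r₀ z - u z) := by
  refine pshOn_of_support hU' ?_ ?_
  · exact ((E.env_continuousOn.mono hsub).sub hu.continuousOn).upperSemicontinuousOn
  · intro z₀ hz₀ X
    obtain ⟨y₀, hy₀, X', q, hq, he, hev⟩ := E.env_support (hsub hz₀) X
    have hyB : y₀ ∈ B := E.carrier ▸ hy₀.1
    have hψ : ContDiffAt ℝ 2 ψ y₀ :=
      (E.ψ_smooth.contDiffAt (E.isOpen_B.mem_nhds hyB)).of_le (by norm_cast)
    have huz : ContDiffAt ℝ 2 u z₀ := hu.contDiffAt (hU'.mem_nhds hz₀)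
    have hc1 := contDiffAt_comp_quadratic hψ X' q
    have hc2 : ContDiffAt ℝ 2 (fun a : ℂ => u (z₀ + a • X)) 0 := by
      have := contDiffAt_comp_quadratic huz X 0
      simpa using this
    refine ⟨fun a => ψ (y₀ + a • X' + a ^ 2 • q) - u (z₀ + a • X), hc1.sub hc2, by simp [he], ?_, ?_⟩
    · filter_upwards [hev] with a ha
      linarith
    · have hl : Laplacian.laplacian (fun a : ℂ => ψ (y₀ + a • X' + a ^ 2 • q) - u (z₀ + a • X)) 0
          = 4 * qf (levi ψ y₀) X' - 4 * qf (levi u z₀) X := by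
        have h3 := hc1.laplacian_sub hc2
        have h4 := laplacian_comp_quadratic hψ X' q
        have h5 := laplacian_comp_quadratic huz X 0
        simp only [smul_zero, add_zero] at h5
        rw [← h4, ← h5]
        exact h3
      rw [hl]
      have h6 := h1 z₀ hz₀ y₀ hy₀ X'
      have h7 := h2 z₀ hz₀ X
      rw [hq] at h6
      linarith

/-- the envelope of a psh function is psh. -/
theorem env_psh (hψ : ∀ y ∈ B, (levi ψ y).PosSemidef) : PshOn U (env 𝓑 h ψ r₀) := by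
  have := E.env_strict (U' := U) E.U_open subset_rfl (κ := 0) (u := fun _ => 0)
    (fun z _ y hy X => by
      rw [zero_mul]
      exact qf_nonneg (hψ y (E.carrier ▸ hy.1)) X)
    contDiffOn_const
    (fun z _ X => by
      rw [zero_mul, levi_const]
      exact (qf_zero X).le)
  simpa using this

end EnvSetting

end Claimed.Agent.R316.SD
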