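import Claimed.Agent.R316.B5.Psh
import Claimed.Agent.R316.B5.PshC
import Claimed.Agent.R316.B6E.Main
import Claimed.Agent.R316.B6E.Pole
import Claimed.Agent.R316.Pack014_2

/-!
# Row 316, S7-3 (static distortion, Lemma 7.3), analytic half: the weighted `L²` extension (`charts.tex` l.443-508)

Owner of the statements: helper84.  PURE `ℂⁿ`, NO METRIC, NO MANIFOLD, no paper reading needed.

`ExtData n r₁ r₂ ρ κ`:  a continuous psh function `Ψ ≤ m` on `ball 0 r₁`; a "sheet" `Z = σ (ball 0 ρ) ⊆ ball 0 r₂` (`r₂ < r₁`), `σ` holomorphic with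
holomorphic inverse `τ : Z → ball 0 ρ`, `σ 0 = 0`; `Ψ ≥ 0` on `Z`; `Ψ - κ |τ|²` psh on `Z`.
**Theorem `sd_extension`**: `|τ'(0) e| ≤ C e^{k m} |e|` with `C, k` depending only on `n, r₁, r₂, ρ, κ`.

Proof.  Let `J = jac τ z`, `Gw = Jᴴ J = levi |τ|²`.  `l` a unit covector, `a = pb (χ · ℓ)` (`pb F = F ∘ τ` on `Z`, `0` elsewhere), `β_j = ∂̄_j a`,
supported in `σ {ρ/4 ≤ |w| ≤ ρ/2}`, `|∑ β_j \bar v_j|² ≤ Cχ · qf Gw v`.  Weights
`φ_ν = k₀ (Ψ * ρ_ν) + pb (poleW (1/(ν+1))) + |z|²`, `poleW ε w = (n+1) θ(log((|w|²+ε)/ρ²))`, `θ x = x` for `x ≤ -3`, `θ = 0` for `x ≥ -1`.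
`levi poleW ≥ - Cλ`, so with `k₀ κ ≥ Cλ + 2`: `levi φ_ν ≥ Gw` on `σ (closedBall 0 (3ρ/4))` and `≥ 0` everywhere on `ball 0 r₂`, for late `ν`.
On the support of `β`: `Ψ * ρ_ν ≥ 0`, `poleW ≥ -3(n+1)`.  `hormander_limit` gives `v`, `∂̄ v = β`, `∫ |v|²/W ≤ Cχ e^{3(n+1)} vol (ball 0 r₂)`,
`W = e^{k₀ Ψ + |z|²} · e^{pole}`, `W ≤ e^{k₀ m + r₂²}`, `W ≤ L |z|^{2(n+1)}` near `0`.  So (`vanish_of_integrable_pole`) `f = a - v` is holomorphic on
`ball 0 r₂`, `f'(0) = ℓ ∘ τ'(0)`, `∫ |f|² ≤ C e^{k₀ m}`; `l2_cauchy`.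

Leaves: SD-EXT-1 (section profiles), SD-EXT-2 (section transfer), SD-EXT-3 (`ev_weights`), SD-EXT-4 (`exists_solution`), SD-EXT-5 (`exists_hol_extension`, from 4),
SD-EXT-6 (`l2_cauchy`).  `sd_extension` is glue.  ALL PROVED (helper84); open inputs: `B6E/Main.lean`, `B6E/Pole.lean`.
-/

set_option autoImplicit false
open scoped ContDiff ComplexOrder ComplexConjugate Topology
open MeasureTheory Filter

namespace Claimed.Agent.R316.SD

variable {n : ℕ}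

/-! ### profiles (functions of `w`) -/

section profiles

/-- smooth step: `0` for `x ≤ -3`, `1` for `x ≥ -1`. -/
noncomputable def eta (x : ℝ) : ℝ := Real.smoothTransition ((x + 3) / 2)

/-- `θ x = x` for `x ≤ -3`, `θ x = 0` for `x ≥ -1`, nondecreasing, `≤ 0`. -/
noncomputable def theta (x : ℝ) : ℝ := x * (1 - eta x)

/-- the regularised logarithmic pole, cut off. -/
noncomputable def poleW (n : ℕ) (ρ ε : ℝ) (w : CE (Fin n)) : ℝ :=
  ((n : ℝ) + 1) * theta (Real.log ((‖w‖ ^ 2 + ε) / ρ ^ 2))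

/-- cutoff: `1` for `|w| ≤ ρ/4`, `0` for `|w| ≥ ρ/2`. -/
noncomputable def chiW (ρ : ℝ) (w : CE (Fin n)) : ℝ :=
  1 - Real.smoothTransition ((16 * ‖w‖ ^ 2 / ρ ^ 2 - 1) / 3)

/-- linear function. -/
noncomputable def linW (l : Fin n → ℂ) (w : CE (Fin n)) : ℂ := ∑ k, l k * w k

/-- `χ ℓ`. -/
noncomputable def aW (ρ : ℝ) (l : Fin n → ℂ) (w : CE (Fin n)) : ℂ := ((chiW ρ w : ℝ) : ℂ) * linW l w

/-- `e^{pole}` for `ε = 0` (value `0` at the pole). -/
noncomputable def expPole (n : ℕ) (ρ : ℝ) (w : CE (Fin n)) : ℝ :=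
  if w = 0 then 0 else Real.exp (poleW n ρ 0 w)

theorem theta_contDiff : ContDiff ℝ ∞ theta := by
  unfold theta eta
  exact contDiff_id.mul (contDiff_const.sub (Real.smoothTransition.contDiff.comp
    ((contDiff_id.add contDiff_const).div_const _)))

theorem theta_of_le {x : ℝ} (hx : x ≤ -3) : theta x = x := by
  unfold theta eta
  rw [Real.smoothTransition.zero_of_nonpos (by linarith)]; ring

theorem theta_of_ge {x : ℝ} (hx : -1 ≤ x) : theta x = 0 := by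
  unfold theta eta
  rw [Real.smoothTransition.one_of_one_le (by linarith)]; ring

theorem theta_nonpos (x : ℝ) : theta x ≤ 0 := by
  rcases le_total (-1) x with h | h
  · rw [theta_of_ge h]
  · unfold theta eta
    exact mul_nonpos_of_nonpos_of_nonneg (by linarith) (sub_nonneg.2 (Real.smoothTransition.le_one _))

theorem theta_mono : Monotone theta := by
  intro x y hxy
  rcases le_total (-1) y with h | h
  · rw [theta_of_ge h]; exact theta_nonpos x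
  · unfold theta eta
    have h1 : Real.smoothTransition ((x + 3) / 2) ≤ Real.smoothTransition ((y + 3) / 2) :=
      Real.smoothTransition.monotone (by linarith)
    have h2 := Real.smoothTransition.le_one ((y + 3) / 2)
    have hx : x ≤ 0 := by linarith
    calc x * (1 - Real.smoothTransition ((x + 3) / 2))
        ≤ x * (1 - Real.smoothTransition ((y + 3) / 2)) :=
          mul_le_mul_of_nonpos_left (by linarith) hx
      _ ≤ y * (1 - Real.smoothTransition ((y + 3) / 2)) :=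
          mul_le_mul_of_nonneg_right hxy (by linarith)

theorem theta_deriv_nonneg (x : ℝ) : 0 ≤ deriv theta x := theta_mono.deriv_nonneg

theorem theta_deriv2_eq_zero {x : ℝ} (hx : x < -3 ∨ -1 < x) : deriv (deriv theta) x = 0 := by
  rcases hx with h | h
  · have h1 : theta =ᶠ[𝓝 x] fun y => y := by
      filter_upwards [Iio_mem_nhds h] with y hy
      exact theta_of_le (le_of_lt hy)
    rw [h1.deriv.deriv_eq]
    simp
  · have h1 : theta =ᶠ[𝓝 x] fun _ => 0 := by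
      filter_upwards [Ioi_mem_nhds h] with y hy
      exact theta_of_ge (le_of_lt hy)
    rw [h1.deriv.deriv_eq]
    simp

theorem theta_deriv2_bdd : ∃ C : ℝ, ∀ x, |deriv (deriv theta) x| ≤ C := by
  have hc : Continuous (deriv (deriv theta)) := by
    have h1 : ContDiff ℝ ∞ (deriv theta) := (contDiff_infty_iff_deriv.1 theta_contDiff).2
    exact ((contDiff_infty_iff_deriv.1 h1).2).continuous
  obtain ⟨C, hC⟩ := (isCompact_Icc (a := (-3 : ℝ)) (b := -1)).exists_bound_of_continuousOn hc.continuousOn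
  refine ⟨max C 0, fun x => ?_⟩
  by_cases hx : x ∈ Set.Icc (-3 : ℝ) (-1)
  · exact (hC x hx).trans (le_max_left _ _)
  · rw [theta_deriv2_eq_zero, abs_zero]
    · exact le_max_right _ _
    · rw [Set.mem_Icc, not_and_or, not_le, not_le] at hx
      exact hx

variable {ρ ε : ℝ}

theorem sdx_exp_neg_one_le : Real.exp (-1) ≤ 9 / 16 := by
  have h := Real.add_one_le_exp (1 : ℝ)
  rw [Real.exp_neg, inv_le_comm₀ (Real.exp_pos _) (by norm_num)]
  norm_num at h ⊢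
  linarith

theorem sdx_exp_three_ge : (16 : ℝ) ≤ Real.exp 3 := by
  have h := Real.exp_one_gt_d9
  have h2 : Real.exp 1 ^ 3 = Real.exp 3 := by
    have := Real.exp_one_pow 3
    simpa using this
  rw [← h2]
  have h3 : (2.7 : ℝ) ^ 3 ≤ Real.exp 1 ^ 3 := pow_le_pow_left₀ (by norm_num) (by linarith) 3
  norm_num at h3 ⊢
  linarith

theorem sdx_exp_three_le : Real.exp 3 ≤ 25 := by
  have h := Real.exp_one_lt_d9
  have h2 : Real.exp 1 ^ 3 = Real.exp 3 := by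
    have := Real.exp_one_pow 3
    simpa using this
  rw [← h2]
  have h3 : Real.exp 1 ^ 3 ≤ (2.72 : ℝ) ^ 3 := pow_le_pow_left₀ (Real.exp_pos _).le (by linarith) 3
  norm_num at h3 ⊢
  linarith

theorem poleW_contDiff (hρ : 0 < ρ) (hε : 0 < ε) : ContDiff ℝ ∞ (poleW n ρ ε) := by
  unfold poleW
  refine contDiff_const.mul (theta_contDiff.comp (ContDiff.log ?_ fun w => ?_))
  · exact (contDiff_normSq_CE.add contDiff_const).div_const _
  · positivity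

theorem poleW_nonpos (w : CE (Fin n)) : poleW n ρ ε w ≤ 0 :=
  mul_nonpos_of_nonneg_of_nonpos (by positivity) (theta_nonpos _)

theorem poleW_eq_zero (hρ : 0 < ρ) (hε : 0 ≤ ε) {w : CE (Fin n)} (hw : 3 / 4 * ρ ≤ ‖w‖) : poleW n ρ ε w = 0 := by
  have hw0 : 0 < ‖w‖ := lt_of_lt_of_le (by positivity) hw
  have h1 : 0 < ‖w‖ ^ 2 + ε := add_pos_of_pos_of_nonneg (pow_pos hw0 2) hε
  unfold poleW
  rw [theta_of_ge, mul_zero]
  rw [Real.le_log_iff_exp_le (div_pos h1 (pow_pos hρ 2))]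
  refine sdx_exp_neg_one_le.trans ?_
  rw [le_div_iff₀ (pow_pos hρ 2)]
  have h2 : (3 / 4 * ρ) ^ 2 ≤ ‖w‖ ^ 2 := pow_le_pow_left₀ (by positivity) hw 2
  nlinarith

theorem poleW_ge (hρ : 0 < ρ) (hε : 0 ≤ ε) {w : CE (Fin n)} (hw : ρ / 4 ≤ ‖w‖) :
    -(3 * ((n : ℝ) + 1)) ≤ poleW n ρ ε w := by
  have hw0 : 0 < ‖w‖ := lt_of_lt_of_le (by positivity) hw
  have h1 : 0 < ‖w‖ ^ 2 + ε := add_pos_of_pos_of_nonneg (pow_pos hw0 2) hε
  have h3 : -3 ≤ Real.log ((‖w‖ ^ 2 + ε) / ρ ^ 2) := by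
    rw [Real.le_log_iff_exp_le (div_pos h1 (pow_pos hρ 2))]
    have h4 : Real.exp (-3) ≤ 1 / 16 := by
      rw [Real.exp_neg, one_div]
      exact inv_anti₀ (by norm_num) sdx_exp_three_ge
    refine h4.trans ?_
    rw [le_div_iff₀ (pow_pos hρ 2)]
    have h2 : (ρ / 4) ^ 2 ≤ ‖w‖ ^ 2 := pow_le_pow_left₀ (by positivity) hw 2
    nlinarith
  have h5 := theta_mono h3
  rw [theta_of_le le_rfl] at h5
  unfold poleW
  have h6 : (0 : ℝ) ≤ (n : ℝ) + 1 := by positivity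
  nlinarith

/-- the negative part of the Levi form of the pole is bounded independently of `ε`. -/
theorem poleW_levi (n : ℕ) (hρ : 0 < ρ) : ∃ Cl : ℝ, 0 < Cl ∧ ∀ ε : ℝ, 0 < ε → ∀ w : CE (Fin n),
    (levi (poleW n ρ ε) w + cI Cl).PosSemidef := by
  obtain ⟨C, hC⟩ := theta_deriv2_bdd
  have hC0 : 0 ≤ C := (abs_nonneg _).trans (hC 0)
  refine ⟨((n : ℝ) + 1) * (C * (Real.exp 3 / ρ ^ 2)) + 1, by positivity, fun ε hε w => ?_⟩
  obtain ⟨c, hc⟩ : ∃ c : ℝ, c = - Real.log (ρ ^ 2) := ⟨_, rfl⟩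
  obtain ⟨T, hT⟩ : ∃ T : CE (Fin n) → ℝ, T = fun y => ‖y‖ ^ 2 + ε := ⟨_, rfl⟩
  have hTpos : ∀ y, 0 < T y := fun y => by rw [hT]; positivity
  have hTc : ContDiff ℝ ∞ T := by rw [hT]; exact contDiff_normSq_CE.add contDiff_const
  have hT2 : ContDiffAt ℝ 2 T w := (hTc.of_le lv_two_le_infty).contDiffAt
  have hL2 : ContDiffAt ℝ 2 (fun y => Real.log (T y)) w := hT2.log (hTpos w).ne'
  obtain ⟨u, hu⟩ : ∃ u : CE (Fin n) → ℝ, u = fun y => Real.log (T y) + c := ⟨_, rfl⟩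
  have hu2 : ContDiffAt ℝ 2 u w := by rw [hu]; exact hL2.add contDiffAt_const
  have hpole : poleW n ρ ε = fun y => ((n : ℝ) + 1) * theta (u y) := by
    funext y
    have := hTpos y
    simp only [poleW, hu, hc]
    rw [hT] at this ⊢
    rw [Real.log_div this.ne' (by positivity)]
    ring_nf
  have hθ2 : ContDiffAt ℝ 2 theta (u w) := (theta_contDiff.of_le lv_two_le_infty).contDiffAt
  have hθu : ContDiffAt ℝ 2 (fun y => theta (u y)) w := hθ2.comp w hu2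
  have hgT : ∀ k, grad10 T w k = conj (w k) := by
    intro k
    rw [hT, grad10_add (contDiff_normSq_CE.differentiable (by simp)).differentiableAt
      (differentiableAt_const _), grad10_const, add_zero, grad10_normSq]
  have hlT : levi T w = 1 := by rw [hT, levi_add_const, levi_normSq]
  have e1 : levi (fun y => theta (u y)) w = ((deriv theta (u w) : ℝ) : ℂ) • levi u w
      + ((deriv (deriv theta) (u w) : ℝ) : ℂ) •
        (Matrix.of fun j k => conj (grad10 u w j) * grad10 u w k) := by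
    ext j k
    rw [levi_comp_real theta hθ2 hu2]
    simp
  have e2 : levi u w = cI ((T w)⁻¹) - ((((T w) ^ 2)⁻¹ : ℝ) : ℂ) •
      (Matrix.of fun j k => conj (conj (w j)) * conj (w k)) := by
    rw [hu, levi_add_const]
    ext j k
    rw [levi_log hT2 (hTpos w).ne', hlT, hgT, hgT]
    simp only [cI, Matrix.sub_apply, Matrix.smul_apply, Matrix.of_apply, smul_eq_mul]
    push_cast
    ring
  have e3 : ∀ k, grad10 u w k = (((T w)⁻¹ : ℝ) : ℂ) * conj (w k) := by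
    intro k
    rw [hu, grad10_add (hL2.differentiableAt (by norm_num)) (differentiableAt_const _), grad10_const,
      add_zero, grad10_comp_real Real.log T (Real.differentiableAt_log (hTpos w).ne')
        (hT2.differentiableAt (by norm_num)), Real.deriv_log, hgT]
  have hherm : (levi (poleW n ρ ε) w + cI (((n : ℝ) + 1) * (C * (Real.exp 3 / ρ ^ 2)) + 1)).IsHermitian :=
    (levi_isHermitian (by rw [hpole]; exact contDiffAt_const.mul hθu)).add (rich_isHermitian_cI _)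
  rw [lv_posSemidef_iff_qf hherm]
  intro v
  rw [hpole, levi_const_mul _ hθu, lv_qf_add, lv_qf_smul, e1, lv_qf_add, lv_qf_smul, lv_qf_smul, e2,
    lv_qf_sub, lv_qf_smul, rich_qf_cI, rich_qf_cI, qf_grad10_outer, qf_grad10_outer]
  obtain ⟨N, hN⟩ : ∃ N : ℝ, N = ∑ j, ‖v j‖ ^ 2 := ⟨_, rfl⟩
  obtain ⟨X, hX⟩ : ∃ X : ℝ, X = ‖∑ k, conj (w k) * v k‖ ^ 2 := ⟨_, rfl⟩
  have hN0 : 0 ≤ N := by rw [hN]; positivity
  have hX0 : 0 ≤ X := by rw [hX]; positivity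
  have hXN : X ≤ T w * N := by
    have h1 := lv_cauchy_schwarz Finset.univ (fun k => w k) v
    rw [← hX, ← hN, ← EuclideanSpace.norm_sq_eq] at h1
    refine h1.trans (mul_le_mul_of_nonneg_right ?_ hN0)
    rw [hT]; linarith
  have hY : ‖∑ k, grad10 u w k * v k‖ ^ 2 = ((T w) ^ 2)⁻¹ * X := by
    have : ∑ k, grad10 u w k * v k = (((T w)⁻¹ : ℝ) : ℂ) * ∑ k, conj (w k) * v k := by
      rw [Finset.mul_sum]
      exact Finset.sum_congr rfl fun k _ => by rw [e3]; ring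
    rw [this, norm_mul, mul_pow, Complex.norm_real, Real.norm_eq_abs, sq_abs, ← hX, inv_pow]
  rw [hY, ← hN, ← hX]
  have ht := hTpos w
  have hZ : ((T w) ^ 2)⁻¹ * X ≤ (T w)⁻¹ * N := by
    have : ((T w) ^ 2)⁻¹ * X ≤ ((T w) ^ 2)⁻¹ * (T w * N) :=
      mul_le_mul_of_nonneg_left hXN (by positivity)
    refine this.trans (le_of_eq ?_)
    field_simp
  have hZ0 : 0 ≤ ((T w) ^ 2)⁻¹ * X := by positivity
  have h1 : 0 ≤ deriv theta (u w) * ((T w)⁻¹ * N - ((T w) ^ 2)⁻¹ * X) :=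
    mul_nonneg (theta_deriv_nonneg _) (sub_nonneg.2 hZ)
  have h2 : -(C * (Real.exp 3 / ρ ^ 2) * N) ≤ deriv (deriv theta) (u w) * (((T w) ^ 2)⁻¹ * X) := by
    by_cases hx : u w < -3 ∨ -1 < u w
    · rw [theta_deriv2_eq_zero hx, zero_mul, neg_nonpos]
      positivity
    · rw [not_or, not_lt, not_lt] at hx
      have h3 : (T w)⁻¹ ≤ Real.exp 3 / ρ ^ 2 := by
        have h4 : -3 ≤ Real.log (T w / ρ ^ 2) := by
          rw [Real.log_div ht.ne' (by positivity)]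
          have := hx.1
          rw [hu, hc] at this
          linarith
        rw [Real.le_log_iff_exp_le (by positivity), Real.exp_neg, le_div_iff₀ (by positivity)] at h4
        rw [inv_le_comm₀ ht (by positivity), inv_div]
        rw [div_le_iff₀ (Real.exp_pos _)]
        have h5 := Real.exp_pos 3
        rw [inv_mul_le_iff₀ h5] at h4
        linarith
      have h6 : ((T w) ^ 2)⁻¹ * X ≤ Real.exp 3 / ρ ^ 2 * N :=
        hZ.trans (mul_le_mul_of_nonneg_right h3 hN0)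
      have h7 := abs_le.1 (hC (u w))
      have h8 : 0 ≤ Real.exp 3 / ρ ^ 2 * N := by positivity
      nlinarith [mul_le_mul_of_nonneg_left h6 hC0, mul_nonneg (sub_nonneg.2 h7.1 |> fun h => (by linarith : 0 ≤ deriv (deriv theta) (u w) + C)) hZ0]
  have h9 : (0 : ℝ) ≤ (n : ℝ) + 1 := by positivity
  nlinarith [mul_nonneg h9 h1, mul_nonneg h9 (by linarith : 0 ≤ deriv (deriv theta) (u w) * (((T w) ^ 2)⁻¹ * X) + (C * (Real.exp 3 / ρ ^ 2) * N))]

theorem tendsto_exp_poleW (hρ : 0 < ρ) (w : CE (Fin n)) :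
    Tendsto (fun ν : ℕ => Real.exp (poleW n ρ (1 / ((ν : ℝ) + 1)) w)) atTop (𝓝 (expPole n ρ w)) := by
  have h0 : Tendsto (fun ν : ℕ => (‖w‖ ^ 2 + 1 / ((ν : ℝ) + 1)) / ρ ^ 2) atTop (𝓝 ((‖w‖ ^ 2 + 0) / ρ ^ 2)) :=
    (tendsto_const_nhds.add tendsto_one_div_add_atTop_nhds_zero_nat).div_const _
  by_cases hw : w = 0
  · rw [expPole, if_pos hw]
    have h1 : Tendsto (fun ν : ℕ => (‖w‖ ^ 2 + 1 / ((ν : ℝ) + 1)) / ρ ^ 2) atTop (𝓝[>] 0) := by
      rw [tendsto_nhdsWithin_iff]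
      refine ⟨by simpa [hw] using h0, Eventually.of_forall fun ν => ?_⟩
      rw [Set.mem_Ioi]
      positivity
    have h2 : Tendsto theta atBot atBot :=
      tendsto_id.congr' ((eventually_le_atBot (-3 : ℝ)).mono fun x hx => (theta_of_le hx).symm)
    exact Real.tendsto_exp_atBot.comp
      ((h2.comp (Real.tendsto_log_nhdsGT_zero.comp h1)).const_mul_atBot (by positivity : (0 : ℝ) < (n : ℝ) + 1))
  · rw [expPole, if_neg hw]
    have hw0 : 0 < ‖w‖ := norm_pos_iff.2 hw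
    have h2 := (Real.continuousAt_log (x := (‖w‖ ^ 2 + 0) / ρ ^ 2) (by positivity)).tendsto.comp h0
    have h3 := (theta_contDiff.continuous.tendsto _).comp h2
    exact (Real.continuous_exp.tendsto _).comp (h3.const_mul ((n : ℝ) + 1))

theorem expPole_le_one (w : CE (Fin n)) : expPole n ρ w ≤ 1 := by
  unfold expPole
  split_ifs
  · exact zero_le_one
  · exact Real.exp_le_one_iff.2 (poleW_nonpos w)

theorem expPole_nonneg (w : CE (Fin n)) : 0 ≤ expPole n ρ w := by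
  unfold expPole
  split_ifs
  · exact le_rfl
  · exact (Real.exp_pos _).le

theorem expPole_pos {w : CE (Fin n)} (hw : w ≠ 0) : 0 < expPole n ρ w := by
  rw [expPole, if_neg hw]
  exact Real.exp_pos _

theorem expPole_eq (hρ : 0 < ρ) {w : CE (Fin n)} (hw : ‖w‖ ≤ ρ / 5) :
    expPole n ρ w = (‖w‖ ^ 2 / ρ ^ 2) ^ (n + 1) := by
  unfold expPole
  split_ifs with h
  · simp [h]
  · have hw0 : 0 < ‖w‖ := norm_pos_iff.2 h
    have hx : 0 < ‖w‖ ^ 2 / ρ ^ 2 := by positivity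
    have h1 : Real.log (‖w‖ ^ 2 / ρ ^ 2) ≤ -3 := by
      rw [Real.log_le_iff_le_exp hx, Real.exp_neg]
      have h3 : (1 : ℝ) / 25 ≤ (Real.exp 3)⁻¹ := by
        rw [one_div]; exact inv_anti₀ (Real.exp_pos _) sdx_exp_three_le
      refine le_trans ?_ h3
      rw [div_le_iff₀ (by positivity)]
      have h2 : ‖w‖ ^ 2 ≤ (ρ / 5) ^ 2 := pow_le_pow_left₀ (norm_nonneg _) hw 2
      nlinarith
    unfold poleW
    rw [add_zero, theta_of_le h1,
      show ((n : ℝ) + 1) * Real.log (‖w‖ ^ 2 / ρ ^ 2) = ((n + 1 : ℕ) : ℝ) * Real.log (‖w‖ ^ 2 / ρ ^ 2) by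
        push_cast; ring, Real.exp_nat_mul, Real.exp_log hx]

theorem expPole_measurable : Measurable (expPole n ρ) := by
  unfold expPole
  refine Measurable.ite (measurableSet_singleton 0) measurable_const ?_
  unfold poleW
  exact Real.measurable_exp.comp (measurable_const.mul (theta_contDiff.continuous.measurable.comp
    (Real.measurable_log.comp (((measurable_norm.pow_const 2).add_const 0).div_const _))))

theorem chiW_contDiff (hρ : 0 < ρ) : ContDiff ℝ ∞ (chiW ρ : CE (Fin n) → ℝ) := by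
  unfold chiW
  exact contDiff_const.sub (Real.smoothTransition.contDiff.comp
    ((((contDiff_const.mul contDiff_normSq_CE).div_const _).sub contDiff_const).div_const _))

theorem chiW_eq_one (hρ : 0 < ρ) {w : CE (Fin n)} (hw : ‖w‖ ≤ ρ / 4) : chiW ρ w = 1 := by
  unfold chiW
  rw [Real.smoothTransition.zero_of_nonpos, sub_zero]
  have h2 : ‖w‖ ^ 2 ≤ (ρ / 4) ^ 2 := pow_le_pow_left₀ (norm_nonneg _) hw 2
  have h3 : 16 * ‖w‖ ^ 2 / ρ ^ 2 ≤ 1 := by
    rw [div_le_iff₀ (by positivity)]; nlinarith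
  linarith

theorem chiW_eq_zero (hρ : 0 < ρ) {w : CE (Fin n)} (hw : ρ / 2 ≤ ‖w‖) : chiW ρ w = 0 := by
  unfold chiW
  rw [Real.smoothTransition.one_of_one_le, sub_self]
  have h2 : (ρ / 2) ^ 2 ≤ ‖w‖ ^ 2 := pow_le_pow_left₀ (by positivity) hw 2
  have h3 : 4 ≤ 16 * ‖w‖ ^ 2 / ρ ^ 2 := by
    rw [le_div_iff₀ (by positivity)]; nlinarith
  linarith

theorem chiW_mem (w : CE (Fin n)) : chiW ρ w ∈ Set.Icc (0 : ℝ) 1 := by
  unfold chiW
  exact ⟨sub_nonneg.2 (Real.smoothTransition.le_one _), sub_le_self _ (Real.smoothTransition.nonneg _)⟩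

theorem linW_contDiff (l : Fin n → ℂ) : ContDiff ℝ ∞ (linW l) := by
  unfold linW
  exact ContDiff.sum fun k _ => contDiff_const.mul contDiff_coord

theorem linW_differentiable (l : Fin n → ℂ) : Differentiable ℂ (linW l) := by
  unfold linW
  exact Differentiable.fun_sum fun k _ => (differentiable_const _).mul fun _ => differentiableAt_coord_complex

theorem norm_linW_le {l : Fin n → ℂ} (hl : ∑ k, ‖l k‖ ^ 2 = 1) (w : CE (Fin n)) : ‖linW l w‖ ≤ ‖w‖ := by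
  have h1 := lv_cauchy_schwarz Finset.univ (fun k => conj (l k)) (fun k => w k)
  simp only [RCLike.norm_conj, Complex.conj_conj, hl, one_mul] at h1
  rw [← EuclideanSpace.norm_sq_eq] at h1
  exact abs_le_of_sq_le_sq' h1 (norm_nonneg _) |>.2

theorem chiWc_contDiff (hρ : 0 < ρ) : ContDiff ℝ ∞ (fun w : CE (Fin n) => ((chiW ρ w : ℝ) : ℂ)) :=
  Complex.ofRealCLM.contDiff.comp (chiW_contDiff hρ)

theorem aW_contDiff (hρ : 0 < ρ) (l : Fin n → ℂ) : ContDiff ℝ ∞ (aW ρ l) := by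
  unfold aW
  exact (chiWc_contDiff hρ).mul (linW_contDiff l)

theorem norm_aW_le (hρ : 0 < ρ) {l : Fin n → ℂ} (hl : ∑ k, ‖l k‖ ^ 2 = 1) (w : CE (Fin n)) : ‖aW ρ l w‖ ≤ ρ / 2 := by
  unfold aW
  rcases le_total (ρ / 2) ‖w‖ with h | h
  · rw [chiW_eq_zero hρ h]; simp; positivity
  · rw [norm_mul, Complex.norm_real, Real.norm_eq_abs, abs_of_nonneg (chiW_mem w).1]
    calc chiW ρ w * ‖linW l w‖ ≤ 1 * ‖w‖ :=
          mul_le_mul (chiW_mem w).2 (norm_linW_le hl w) (norm_nonneg _) zero_le_one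
      _ ≤ ρ / 2 := by rw [one_mul]; exact h

theorem dzb_aW_eq (hρ : 0 < ρ) (l : Fin n → ℂ) (w : CE (Fin n)) (j : Fin n) :
    dzb j (aW ρ l) w = dzb j (fun y : CE (Fin n) => ((chiW ρ y : ℝ) : ℂ)) w * linW l w := by
  unfold aW
  rw [dzb_mul ((chiWc_contDiff hρ).differentiable (by simp)).differentiableAt
    ((linW_contDiff l).differentiable (by simp)).differentiableAt,
    dzb_of_differentiableAt (linW_differentiable l w), mul_zero, add_zero]

theorem dzb_chiW_eq_zero (hρ : 0 < ρ) {w : CE (Fin n)} (hw : ‖w‖ < ρ / 4 ∨ ρ / 2 < ‖w‖) (j : Fin n) :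
    dzb j (fun y : CE (Fin n) => ((chiW ρ y : ℝ) : ℂ)) w = 0 := by
  rcases hw with h | h
  · have h1 : (fun y : CE (Fin n) => ((chiW ρ y : ℝ) : ℂ)) =ᶠ[𝓝 w] fun _ => 1 := by
      filter_upwards [(continuous_norm.tendsto w).eventually (gt_mem_nhds h)] with y hy
      rw [chiW_eq_one hρ hy.le]; rfl
    rw [dzb_congr h1, dzb_const]
  · have h1 : (fun y : CE (Fin n) => ((chiW ρ y : ℝ) : ℂ)) =ᶠ[𝓝 w] fun _ => 0 := by
      filter_upwards [(continuous_norm.tendsto w).eventually (lt_mem_nhds h)] with y hy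
      rw [chiW_eq_zero hρ hy.le]; rfl
    rw [dzb_congr h1, dzb_const]

/-- `∂̄(χ ℓ)` is bounded, uniformly in the unit covector `l`, and supported in the annulus. -/
theorem dzb_aW_bound (n : ℕ) (hρ : 0 < ρ) : ∃ Cx : ℝ, 0 < Cx ∧ ∀ l : Fin n → ℂ, ∑ k, ‖l k‖ ^ 2 = 1 →
    ∀ w : CE (Fin n), ∑ j, ‖dzb j (aW ρ l) w‖ ^ 2 ≤ Cx := by
  have hc : Continuous fun w : CE (Fin n) =>
      (∑ j, ‖dzb j (fun y : CE (Fin n) => ((chiW ρ y : ℝ) : ℂ)) w‖ ^ 2) * ‖w‖ ^ 2 := by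
    refine Continuous.mul (continuous_finsetSum _ fun j _ => ?_) (continuous_norm.pow 2)
    exact ((contDiff_dzb (chiWc_contDiff hρ)).continuous.norm).pow 2
  obtain ⟨C, hC⟩ := (isCompact_closedBall (0 : CE (Fin n)) (ρ / 2)).exists_bound_of_continuousOn hc.continuousOn
  refine ⟨max C 0 + 1, by positivity, fun l hl w => ?_⟩
  have h1 : ∑ j, ‖dzb j (aW ρ l) w‖ ^ 2
      ≤ (∑ j, ‖dzb j (fun y : CE (Fin n) => ((chiW ρ y : ℝ) : ℂ)) w‖ ^ 2) * ‖w‖ ^ 2 := by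
    rw [Finset.sum_mul]
    refine Finset.sum_le_sum fun j _ => ?_
    rw [dzb_aW_eq hρ, norm_mul, mul_pow]
    exact mul_le_mul_of_nonneg_left (pow_le_pow_left₀ (norm_nonneg _) (norm_linW_le hl w) 2) (by positivity)
  refine h1.trans ?_
  by_cases hw : w ∈ Metric.closedBall (0 : CE (Fin n)) (ρ / 2)
  · have := hC w hw
    rw [Real.norm_eq_abs] at this
    exact ((le_abs_self _).trans this).trans ((le_max_left _ _).trans (by linarith))
  · rw [mem_closedBall_zero_iff, not_le] at hw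
    simp only [dzb_chiW_eq_zero hρ (Or.inr hw)]
    simp
    positivity

theorem dzb_aW_eq_zero (hρ : 0 < ρ) (l : Fin n → ℂ) {w : CE (Fin n)} (hw : ‖w‖ < ρ / 4 ∨ ρ / 2 < ‖w‖) (j : Fin n) :
    dzb j (aW ρ l) w = 0 := by
  rw [dzb_aW_eq hρ, dzb_chiW_eq_zero hρ hw, zero_mul]

end profiles

/-! ### the data -/

/-- the input of the extension theorem. -/
structure ExtData (n : ℕ) (r₁ r₂ ρ κ : ℝ) where
  Ψ : CE (Fin n) → ℝ
  m : ℝ
  σ : CE (Fin n) → CE (Fin n)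
  τ : CE (Fin n) → CE (Fin n)
  Ψ_cont : ContinuousOn Ψ (Metric.ball 0 r₁)
  Ψ_psh : PshOn (Metric.ball 0 r₁) Ψ
  Ψ_le : ∀ z ∈ Metric.ball (0 : CE (Fin n)) r₁, Ψ z ≤ m
  σ_hol : DifferentiableOn ℂ σ (Metric.ball 0 ρ)
  σ_zero : σ 0 = 0
  σ_maps : Set.MapsTo σ (Metric.ball 0 ρ) (Metric.ball 0 r₂)
  Z_open : IsOpen (σ '' Metric.ball 0 ρ)
  τ_hol : DifferentiableOn ℂ τ (σ '' Metric.ball 0 ρ)
  τ_σ : ∀ w ∈ Metric.ball (0 : CE (Fin n)) ρ, τ (σ w) = w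
  Ψ_nonneg : ∀ z ∈ σ '' Metric.ball 0 ρ, 0 ≤ Ψ z
  Ψ_strict : PshOn (σ '' Metric.ball 0 ρ) (fun z => Ψ z - κ * ‖τ z‖ ^ 2)

namespace ExtData

variable {r₁ r₂ ρ κ : ℝ} (D : ExtData n r₁ r₂ ρ κ)

/-- the sheet. -/
def Z : Set (CE (Fin n)) := D.σ '' Metric.ball 0 ρ

open Classical in
/-- pull back of a function of `w` to the sheet, extended by `0`. -/
noncomputable def pb {E' : Type} [Zero E'] (F : CE (Fin n) → E') : CE (Fin n) → E' :=
  Set.indicator D.Z (F ∘ D.τ)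

/-- `Gw = Jᴴ J`, the pull back of the Euclidean metric of the `w`-space. -/
noncomputable def Gw (z : CE (Fin n)) : Matrix (Fin n) (Fin n) ℂ :=
  (jac D.τ z).conjTranspose * jac D.τ z

open Classical in
/-- `Ψ` cut to a compact ball (locally integrable on `ℂⁿ`). -/
noncomputable def Psit : CE (Fin n) → ℝ := Set.indicator (Metric.closedBall 0 ((r₁ + r₂) / 2)) D.Ψ

/-- the smooth weights. -/
noncomputable def phi (k₀ : ℝ) (ν : ℕ) (z : CE (Fin n)) : ℝ :=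
  k₀ * B6E.wsMol ν D.Psit z + D.pb (poleW n ρ (1 / ((ν : ℝ) + 1))) z + ‖z‖ ^ 2

open Classical in
/-- the limit of `e^{φ_ν}`. -/
noncomputable def Wt (k₀ : ℝ) (z : CE (Fin n)) : ℝ :=
  Real.exp (k₀ * D.Ψ z + ‖z‖ ^ 2) * (if z ∈ D.Z then expPole n ρ (D.τ z) else 1)

/-- the function to be corrected. -/
noncomputable def aZ (l : Fin n → ℂ) : CE (Fin n) → ℂ := D.pb (aW ρ l)

/-! ### transfer to the `z`-space -/

section transfer

theorem zero_mem_Z (hρ : 0 < ρ) : (0 : CE (Fin n)) ∈ D.Z := ⟨0, Metric.mem_ball_self hρ, D.σ_zero⟩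

theorem τ_zero (hρ : 0 < ρ) : D.τ 0 = 0 := by
  have := D.τ_σ 0 (Metric.mem_ball_self hρ)
  rwa [D.σ_zero] at this

theorem Z_subset : D.Z ⊆ Metric.ball 0 r₂ := by
  rintro _ ⟨w, hw, rfl⟩; exact D.σ_maps hw

theorem τ_mem {z : CE (Fin n)} (hz : z ∈ D.Z) : D.τ z ∈ Metric.ball (0 : CE (Fin n)) ρ := by
  obtain ⟨w, hw, rfl⟩ := hz; rw [D.τ_σ w hw]; exact hw

theorem σ_τ {z : CE (Fin n)} (hz : z ∈ D.Z) : D.σ (D.τ z) = z := by
  obtain ⟨w, hw, rfl⟩ := hz; rw [D.τ_σ w hw]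

theorem isCompact_image {ρ' : ℝ} (h : ρ' < ρ) : IsCompact (D.σ '' Metric.closedBall 0 ρ') :=
  (isCompact_closedBall _ _).image_of_continuousOn
    (D.σ_hol.continuousOn.mono (Metric.closedBall_subset_ball h))

theorem pb_of_mem {E' : Type} [Zero E'] (F : CE (Fin n) → E') {z : CE (Fin n)} (hz : z ∈ D.Z) :
    D.pb F z = F (D.τ z) := by
  simp [pb, hz]

theorem pb_of_not_mem {E' : Type} [Zero E'] (F : CE (Fin n) → E') {z : CE (Fin n)} (hz : z ∉ D.Z) :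
    D.pb F z = 0 := by
  simp [pb, hz]

theorem τ_contDiffOn : ContDiffOn ℝ ∞ D.τ D.Z := hol_contDiffOn_real D.Z_open D.τ_hol

theorem τ_differentiableAt {z : CE (Fin n)} (hz : z ∈ D.Z) : DifferentiableAt ℂ D.τ z :=
  D.τ_hol.differentiableAt (D.Z_open.mem_nhds hz)

theorem pb_eventuallyEq {E' : Type} [Zero E'] (F : CE (Fin n) → E') {z : CE (Fin n)} (hz : z ∈ D.Z) :
    D.pb F =ᶠ[𝓝 z] fun y => F (D.τ y) := by
  filter_upwards [D.Z_open.mem_nhds hz] with y hy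
  exact D.pb_of_mem F hy

theorem pb_eventuallyEq_zero {E' : Type} [Zero E'] {F : CE (Fin n) → E'} {ρ' : ℝ} (h : ρ' < ρ)
    (h0 : ∀ w, ρ' ≤ ‖w‖ → F w = 0) {z : CE (Fin n)} (hz : z ∉ D.σ '' Metric.closedBall 0 ρ') :
    D.pb F =ᶠ[𝓝 z] fun _ => 0 := by
  filter_upwards [(D.isCompact_image h).isClosed.isOpen_compl.mem_nhds hz] with y hy
  by_cases hyZ : y ∈ D.Z
  · rw [D.pb_of_mem F hyZ]
    apply h0
    by_contra hlt
    rw [not_le] at hlt
    exact hy ⟨D.τ y, mem_closedBall_zero_iff.2 hlt.le, D.σ_τ hyZ⟩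
  · exact D.pb_of_not_mem F hyZ

theorem image_closedBall_subset {ρ' : ℝ} (h : ρ' < ρ) : D.σ '' Metric.closedBall 0 ρ' ⊆ D.Z :=
  Set.image_mono (Metric.closedBall_subset_ball h)

/-- a smooth function of `w` which vanishes for `|w| ≥ ρ'`, `ρ' < ρ`, pulls back to a smooth function on `ℂⁿ`. -/
theorem pb_contDiff {E' : Type} [NormedAddCommGroup E'] [NormedSpace ℝ E'] {F : CE (Fin n) → E'} (hF : ContDiff ℝ ∞ F)
    {ρ' : ℝ} (h : ρ' < ρ) (h0 : ∀ w, ρ' ≤ ‖w‖ → F w = 0) : ContDiff ℝ ∞ (D.pb F) := by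
  rw [contDiff_iff_contDiffAt]
  intro z
  by_cases hz : z ∈ D.Z
  · have h1 : ContDiffAt ℝ ∞ (fun y => F (D.τ y)) z :=
      hF.contDiffAt.comp z (D.τ_contDiffOn.contDiffAt (D.Z_open.mem_nhds hz))
    exact h1.congr_of_eventuallyEq (D.pb_eventuallyEq F hz)
  · exact contDiffAt_const.congr_of_eventuallyEq
      (D.pb_eventuallyEq_zero h h0 fun hh => hz (D.image_closedBall_subset h hh))

theorem levi_pb {F : CE (Fin n) → ℝ} (hF : ContDiff ℝ ∞ F) {z : CE (Fin n)} (hz : z ∈ D.Z) :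
    levi (D.pb F) z = (jac D.τ z).conjTranspose * levi F (D.τ z) * jac D.τ z := by
  rw [levi_congr (D.pb_eventuallyEq F hz)]
  exact levi_comp_holOn D.τ F D.Z_open D.τ_hol hz (hF.of_le lv_two_le_infty).contDiffAt

theorem levi_pb_of_not_mem {F : CE (Fin n) → ℝ} {ρ' : ℝ} (h : ρ' < ρ) (h0 : ∀ w, ρ' ≤ ‖w‖ → F w = 0)
    {z : CE (Fin n)} (hz : z ∉ D.σ '' Metric.closedBall 0 ρ') : levi (D.pb F) z = 0 := by
  rw [levi_congr (D.pb_eventuallyEq_zero h h0 hz)]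
  exact levi_const 0

theorem levi_normSq_τ {z : CE (Fin n)} (hz : z ∈ D.Z) : levi (fun y => ‖D.τ y‖ ^ 2) z = D.Gw z := by
  rw [levi_comp_holOn D.τ (fun y => ‖y‖ ^ 2) D.Z_open D.τ_hol hz
    (contDiff_normSq_CE.of_le lv_two_le_infty).contDiffAt, levi_normSq, Matrix.mul_one]
  rfl

/-- `∑_j ∂̄_j (F ∘ τ) \bar v_j = ∑_k (∂̄_k F)(τ z) \overline{(J v)_k}`. -/
theorem sum_dzb_pb {F : CE (Fin n) → ℂ} (hF : ContDiff ℝ ∞ F) {z : CE (Fin n)} (hz : z ∈ D.Z) (v : Fin n → ℂ) :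
    ∑ j, dzb j (D.pb F) z * conj (v j) = ∑ k, dzb k F (D.τ z) * conj ((jac D.τ z).mulVec v k) := by
  have h1 : ∀ j, dzb j (D.pb F) z = ∑ k, dzb k F (D.τ z) * conj (jac D.τ z k j) := fun j => by
    rw [dzb_congr (D.pb_eventuallyEq F hz)]
    exact dzb_comp_hol D.τ F (D.τ_differentiableAt hz) (hF.differentiable (by simp)).differentiableAt
  simp only [h1, Finset.sum_mul, Matrix.mulVec, dotProduct, map_sum, map_mul, Finset.mul_sum]
  rw [Finset.sum_comm]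
  exact Finset.sum_congr rfl fun k _ => Finset.sum_congr rfl fun j _ => by ring

theorem qf_Gw (z : CE (Fin n)) (v : Fin n → ℂ) : qf (D.Gw z) v = ∑ k, ‖(jac D.τ z).mulVec v k‖ ^ 2 := by
  have h1 := lv_qf_conjTranspose_mul_mul (1 : Matrix (Fin n) (Fin n) ℂ) (jac D.τ z) v
  rw [Matrix.mul_one] at h1
  have h2 := rich_qf_cI (ι := Fin n) 1 ((jac D.τ z).mulVec v)
  have h3 : (cI 1 : Matrix (Fin n) (Fin n) ℂ) = 1 := by simp [cI]
  rw [h3, one_mul] at h2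
  rw [Gw, h1, h2]

theorem Gw_isHermitian (z : CE (Fin n)) : (D.Gw z).IsHermitian :=
  Matrix.isHermitian_conjTranspose_mul_self _

theorem Gw_posSemidef (z : CE (Fin n)) : (D.Gw z).PosSemidef :=
  Matrix.posSemidef_conjTranspose_mul_self _

/-- the source `β = ∂̄ a`: bound in terms of `Gw`. -/
theorem dzb_aZ_bound (hρ : 0 < ρ) {Cx : ℝ} {l : Fin n → ℂ}
    (hCx : ∀ w : CE (Fin n), ∑ j, ‖dzb j (aW ρ l) w‖ ^ 2 ≤ Cx) {z : CE (Fin n)} (hz : z ∈ D.Z) (v : Fin n → ℂ) :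
    ‖∑ j, dzb j (D.aZ l) z * conj (v j)‖ ^ 2 ≤ Cx * qf (D.Gw z) v := by
  unfold aZ
  rw [D.sum_dzb_pb (aW_contDiff hρ l) hz v, D.qf_Gw]
  have h2 := lv_cauchy_schwarz Finset.univ (fun k => (jac D.τ z).mulVec v k)
    (fun k => dzb k (aW ρ l) (D.τ z))
  have h3 : ∑ k, dzb k (aW ρ l) (D.τ z) * conj ((jac D.τ z).mulVec v k)
      = ∑ k, conj ((jac D.τ z).mulVec v k) * dzb k (aW ρ l) (D.τ z) :=
    Finset.sum_congr rfl fun k _ => mul_comm _ _
  rw [h3]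
  refine h2.trans ?_
  rw [mul_comm]
  exact mul_le_mul_of_nonneg_right (hCx _) (by positivity)

theorem aW_eq_zero (hρ : 0 < ρ) (l : Fin n → ℂ) (w : CE (Fin n)) (hw : ρ / 2 ≤ ‖w‖) : aW ρ l w = 0 := by
  unfold aW
  rw [chiW_eq_zero hρ hw]
  simp

theorem dzb_aZ_eq_zero (hρ : 0 < ρ) (l : Fin n → ℂ) {z : CE (Fin n)}
    (hz : z ∉ D.σ '' (Metric.closedBall 0 (ρ / 2) \ Metric.ball 0 (ρ / 4))) (j : Fin n) : dzb j (D.aZ l) z = 0 := by
  unfold aZ
  by_cases hzZ : z ∈ D.Z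
  · rw [dzb_congr (D.pb_eventuallyEq _ hzZ), dzb_comp_hol D.τ _ (D.τ_differentiableAt hzZ)
      ((aW_contDiff hρ l).differentiable (by simp)).differentiableAt]
    refine Finset.sum_eq_zero fun k _ => ?_
    rw [dzb_aW_eq_zero hρ l ?_ k, zero_mul]
    by_contra hcon
    rw [not_or, not_lt, not_lt] at hcon
    exact hz ⟨D.τ z, ⟨mem_closedBall_zero_iff.2 hcon.2,
      fun hb => absurd (mem_ball_zero_iff.1 hb) (not_lt.2 hcon.1)⟩, D.σ_τ hzZ⟩
  · rw [dzb_congr (D.pb_eventuallyEq_zero (by linarith : ρ / 2 < ρ) (aW_eq_zero hρ l)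
      fun hh => hzZ (D.image_closedBall_subset (by linarith) hh)), dzb_const]

theorem aZ_contDiff (hρ : 0 < ρ) (l : Fin n → ℂ) : ContDiff ℝ ∞ (D.aZ l) :=
  D.pb_contDiff (aW_contDiff hρ l) (by linarith : ρ / 2 < ρ) (aW_eq_zero hρ l)

theorem norm_aZ_le (hρ : 0 < ρ) {l : Fin n → ℂ} (hl : ∑ k, ‖l k‖ ^ 2 = 1) (z : CE (Fin n)) : ‖D.aZ l z‖ ≤ ρ / 2 := by
  unfold aZ
  by_cases hz : z ∈ D.Z
  · rw [D.pb_of_mem _ hz]; exact norm_aW_le hρ hl _
  · rw [D.pb_of_not_mem _ hz, norm_zero]; positivity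

theorem τ_eventually_small (hρ : 0 < ρ) {c : ℝ} (hc : 0 < c) : ∀ᶠ z in 𝓝 (0 : CE (Fin n)), ‖D.τ z‖ < c := by
  have h1 := (D.τ_differentiableAt (D.zero_mem_Z hρ)).continuousAt.norm.tendsto
  rw [D.τ_zero hρ, norm_zero] at h1
  exact h1.eventually (gt_mem_nhds hc)

/-- near `0`, `a = ℓ ∘ τ`. -/
theorem aZ_eventuallyEq (hρ : 0 < ρ) (l : Fin n → ℂ) : D.aZ l =ᶠ[𝓝 0] fun z => linW l (D.τ z) := by
  filter_upwards [D.τ_eventually_small hρ (by positivity : 0 < ρ / 4),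
    D.Z_open.mem_nhds (D.zero_mem_Z hρ)] with z hz hzZ
  unfold aZ
  rw [D.pb_of_mem _ hzZ, aW, chiW_eq_one hρ hz.le]
  simp

theorem locallyIntegrable_Psit (h12 : r₂ < r₁) : LocallyIntegrable D.Psit volume := by
  have hsub : Metric.closedBall (0 : CE (Fin n)) ((r₁ + r₂) / 2) ⊆ Metric.ball 0 r₁ :=
    Metric.closedBall_subset_ball (by linarith)
  have h1 : IntegrableOn D.Ψ (Metric.closedBall 0 ((r₁ + r₂) / 2)) volume :=
    (D.Ψ_cont.mono hsub).integrableOn_compact (isCompact_closedBall _ _)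
  exact (h1.integrable_indicator measurableSet_closedBall).locallyIntegrable

end transfer

/-! ### the weights -/

theorem Psit_eq {z : CE (Fin n)} (hz : z ∈ Metric.closedBall (0 : CE (Fin n)) ((r₁ + r₂) / 2)) :
    D.Psit z = D.Ψ z := Set.indicator_of_mem hz _

theorem ball_subset_closedBall (h12 : r₂ < r₁) :
    Metric.ball (0 : CE (Fin n)) r₂ ⊆ Metric.closedBall 0 ((r₁ + r₂) / 2) :=
  (Metric.ball_subset_ball (by linarith)).trans Metric.ball_subset_closedBall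

theorem Psit_eq_of_mem_Z (h12 : r₂ < r₁) {z : CE (Fin n)} (hz : z ∈ D.Z) : D.Psit z = D.Ψ z :=
  D.Psit_eq (ball_subset_closedBall h12 (D.Z_subset hz))

theorem m_nonneg (h0 : 0 < r₂) (h12 : r₂ < r₁) (hρ : 0 < ρ) : 0 ≤ D.m :=
  (D.Ψ_nonneg 0 (D.zero_mem_Z hρ)).trans (D.Ψ_le 0 (Metric.mem_ball_self (by linarith)))

theorem Psit_le (h0 : 0 < r₂) (h12 : r₂ < r₁) (hρ : 0 < ρ) (z : CE (Fin n)) : D.Psit z ≤ D.m := by
  by_cases hz : z ∈ Metric.closedBall (0 : CE (Fin n)) ((r₁ + r₂) / 2)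
  · rw [D.Psit_eq hz]
    exact D.Ψ_le z (Metric.closedBall_subset_ball (by linarith) hz)
  · rw [Psit, Set.indicator_of_notMem hz]
    exact D.m_nonneg h0 h12 hρ

theorem Psit_eqOn : Set.EqOn D.Ψ D.Psit (Metric.ball 0 ((r₁ + r₂) / 2)) := fun _ hz =>
  (D.Psit_eq (Metric.ball_subset_closedBall hz)).symm

theorem Psit_continuousOn (h12 : r₂ < r₁) : ContinuousOn D.Psit (Metric.ball 0 ((r₁ + r₂) / 2)) :=
  (D.Ψ_cont.mono (Metric.ball_subset_ball (by linarith))).congr fun _ hz => (D.Psit_eqOn hz).symm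

theorem Psit_pshOn (h12 : r₂ < r₁) : PshOn (Metric.ball 0 ((r₁ + r₂) / 2)) D.Psit :=
  (D.Ψ_psh.mono (Metric.ball_subset_ball (by linarith))).congr D.Psit_eqOn

theorem Z_subset_ball (h12 : r₂ < r₁) : D.Z ⊆ Metric.ball 0 ((r₁ + r₂) / 2) :=
  D.Z_subset.trans (Metric.ball_subset_ball (by linarith))

theorem chVisc_Psit (h12 : r₂ < r₁) : ChVisc D.Z D.Psit (fun z => ((κ : ℝ) : ℂ) • D.Gw z) := by
  intro z hz q hq hle heq
  have hq2 : ContDiffAt ℝ 2 q z := (hq.of_le lv_two_le_infty).contDiffAt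
  have hτ2 : ContDiffAt ℝ 2 (fun y => ‖D.τ y‖ ^ 2) z :=
    ((contDiff_normSq_CE.of_le lv_two_le_infty).contDiffAt).comp z
      ((D.τ_contDiffOn.contDiffAt (D.Z_open.mem_nhds hz)).of_le lv_two_le_infty)
  have hκτ : ContDiffAt ℝ 2 (fun y => κ * ‖D.τ y‖ ^ 2) z := contDiffAt_const.mul hτ2
  have h1 := levi_posSemidef_of_pshOn_touching D.Z_open D.Ψ_strict hz (hq2.sub hκτ) (by
    filter_upwards [hle, D.Z_open.mem_nhds hz] with y hy hyZ
    rw [D.Psit_eq_of_mem_Z h12 hyZ] at hy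
    linarith) (by rw [heq, D.Psit_eq_of_mem_Z h12 hz])
  rwa [levi_sub hq2 hκτ, levi_const_mul κ hτ2, D.levi_normSq_τ hz] at h1

theorem Gw_continuousOn (j k : Fin n) : ContinuousOn (fun z => D.Gw z j k) D.Z := by
  simp only [Gw, Matrix.mul_apply, Matrix.conjTranspose_apply]
  refine continuousOn_finsetSum _ fun i _ => ContinuousOn.mul ?_ ?_
  · exact Complex.continuous_conj.comp_continuousOn (contDiffOn_jac D.Z_open D.τ_hol i j).continuousOn
  · exact (contDiffOn_jac D.Z_open D.τ_hol i k).continuousOn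

theorem sdx_qf_nonneg {A : Matrix (Fin n) (Fin n) ℂ} (h : A.PosSemidef) (v : Fin n → ℂ) : 0 ≤ qf A v :=
  (lv_posSemidef_iff_qf h.1).1 h v

/-- **the weights are admissible** for all late `ν`; `k₀` depends only on `n, ρ, κ`. -/
theorem ev_weights (n : ℕ) {r₁ r₂ ρ κ : ℝ} (h0 : 0 < r₂) (h12 : r₂ < r₁) (hρ : 0 < ρ) (hκ : 0 < κ) :
    ∃ k₀ : ℝ, 0 < k₀ ∧ ∀ D : ExtData n r₁ r₂ ρ κ, ∀ᶠ ν : ℕ in atTop,
      ContDiffOn ℝ ∞ (D.phi k₀ ν) (Metric.ball 0 r₂) ∧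
      (∀ z ∈ Metric.ball (0 : CE (Fin n)) r₂, (levi (D.phi k₀ ν) z).PosSemidef) ∧
      (∀ z ∈ D.σ '' Metric.closedBall 0 (ρ / 2), (levi (D.phi k₀ ν) z - D.Gw z).PosSemidef) ∧
      (∀ z ∈ D.σ '' (Metric.closedBall 0 (ρ / 2) \ Metric.ball 0 (ρ / 4)), -(3 * ((n : ℝ) + 1)) ≤ D.phi k₀ ν z) ∧
      (∀ z ∈ Metric.ball (0 : CE (Fin n)) r₂, D.phi k₀ ν z ≤ k₀ * D.m + r₂ ^ 2) := by
  obtain ⟨Cl, hCl, hlev⟩ := poleW_levi n hρ
  obtain ⟨k₀, hk₀def⟩ : ∃ k₀ : ℝ, k₀ = (Cl + 1) / κ := ⟨_, rfl⟩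
  have hk₀ : 0 < k₀ := by rw [hk₀def]; positivity
  have hk₀κ : k₀ * κ = Cl + 1 := by rw [hk₀def]; field_simp
  refine ⟨k₀, hk₀, fun D => ?_⟩
  have hloc := D.locallyIntegrable_Psit h12
  have h34 : 3 / 4 * ρ < ρ := by linarith
  have h2ρ : ρ / 2 < ρ := by linarith
  have e1 := levi_wsMol_ge_of_chVisc D.Z_open (D.isCompact_image h34) (D.image_closedBall_subset h34) hloc
    ((D.Psit_continuousOn h12).mono (D.Z_subset_ball h12)) (a := fun z => ((κ : ℝ) : ℂ) • D.Gw z)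
    (fun j k => by
      simp only [Matrix.smul_apply, smul_eq_mul]
      exact continuousOn_const.mul (D.Gw_continuousOn j k))
    (fun z _ => by
      have := (D.Gw_isHermitian z)
      rw [Matrix.IsHermitian, Matrix.conjTranspose_smul, this.eq]
      simp)
    (D.chVisc_Psit h12) (η := 1 / k₀) (by positivity)
  have e2 := rich_eventually_scale (by linarith : 0 < (r₁ - r₂) / 2)
  obtain ⟨δ, hδ, hthick⟩ := (D.isCompact_image h2ρ).exists_thickening_subset_open D.Z_open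
    (D.image_closedBall_subset h2ρ)
  have e3 := rich_eventually_scale hδ
  filter_upwards [e1, e2, e3] with ν h1 h2 h3
  have hεν : 0 < 1 / ((ν : ℝ) + 1) := by positivity
  have hmolc : ContDiff ℝ ∞ (B6E.wsMol ν D.Psit) := B6E.wsMol_contDiff ν hloc
  have hpole0 : ∀ w : CE (Fin n), 3 / 4 * ρ ≤ ‖w‖ → poleW n ρ (1 / ((ν : ℝ) + 1)) w = 0 :=
    fun w hw => poleW_eq_zero hρ hεν.le hw
  have hpbc : ContDiff ℝ ∞ (D.pb (poleW n ρ (1 / ((ν : ℝ) + 1)))) :=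
    D.pb_contDiff (poleW_contDiff hρ hεν) h34 hpole0
  have hphic : ContDiff ℝ ∞ (D.phi k₀ ν) := ((contDiff_const.mul hmolc).add hpbc).add contDiff_normSq_CE
  have c2 : ∀ {f : CE (Fin n) → ℝ}, ContDiff ℝ ∞ f → ∀ z, ContDiffAt ℝ 2 f z :=
    fun hf z => (hf.of_le lv_two_le_infty).contDiffAt
  have hlevphi : ∀ z, levi (D.phi k₀ ν) z = ((k₀ : ℝ) : ℂ) • levi (B6E.wsMol ν D.Psit) z
      + levi (D.pb (poleW n ρ (1 / ((ν : ℝ) + 1)))) z + cI 1 := by
    intro z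
    have hI : (cI 1 : Matrix (Fin n) (Fin n) ℂ) = 1 := by simp [cI]
    unfold phi
    rw [levi_add (c2 ((contDiff_const.mul hmolc).add hpbc) z) (c2 contDiff_normSq_CE z),
      levi_add (c2 (contDiff_const.mul hmolc) z) (c2 hpbc z), levi_const_mul k₀ (c2 hmolc z), levi_normSq, hI]
  have hmolpos : ∀ z ∈ Metric.ball (0 : CE (Fin n)) r₂, (levi (B6E.wsMol ν D.Psit) z).PosSemidef := by
    intro z hz
    refine levi_wsMol_posSemidef Metric.isOpen_ball hloc (D.Psit_continuousOn h12) (D.Psit_pshOn h12) ?_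
    intro y hy
    rw [mem_ball_zero_iff] at hz ⊢
    rw [Metric.mem_closedBall, dist_eq_norm] at hy
    have := norm_add_le (y - z) z
    rw [sub_add_cancel] at this
    linarith
  have hkey : ∀ z ∈ D.σ '' Metric.closedBall 0 (3 / 4 * ρ), (levi (D.phi k₀ ν) z - D.Gw z).PosSemidef := by
    intro z hz
    have hzZ := D.image_closedBall_subset h34 hz
    rw [lv_posSemidef_iff_qf ((levi_isHermitian (c2 hphic z)).sub (D.Gw_isHermitian z))]
    intro v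
    have q1 := sdx_qf_nonneg (h1 z hz) v
    have q2 := sdx_qf_nonneg (hlev _ hεν (D.τ z)) ((jac D.τ z).mulVec v)
    rw [lv_qf_add, lv_qf_sub, lv_qf_smul, rich_qf_cI] at q1
    rw [lv_qf_add, rich_qf_cI, ← D.qf_Gw] at q2
    rw [lv_qf_sub, hlevphi, lv_qf_add, lv_qf_add, lv_qf_smul, rich_qf_cI, D.levi_pb (poleW_contDiff hρ hεν) hzZ,
      lv_qf_conjTranspose_mul_mul]
    have q3 : k₀ * (1 / k₀ * ∑ j, ‖v j‖ ^ 2) = ∑ j, ‖v j‖ ^ 2 := by field_simp
    have q4 := mul_nonneg hk₀.le q1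
    have q5 : k₀ * (κ * qf (D.Gw z) v) = (Cl + 1) * qf (D.Gw z) v := by rw [← mul_assoc, hk₀κ]
    nlinarith
  refine ⟨hphic.contDiffOn, fun z hz => ?_, fun z hz => ?_, fun z hz => ?_, fun z hz => ?_⟩
  · by_cases hzC : z ∈ D.σ '' Metric.closedBall 0 (3 / 4 * ρ)
    · have := (hkey z hzC).add (D.Gw_posSemidef z)
      rwa [sub_add_cancel] at this
    · rw [hlevphi, D.levi_pb_of_not_mem h34 hpole0 hzC, add_zero]
      refine Matrix.PosSemidef.add ((hmolpos z hz).smul ?_) (rich_posSemidef_cI zero_le_one)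
      exact_mod_cast hk₀.le
  · exact hkey z (Set.image_mono (Metric.closedBall_subset_closedBall (by linarith)) hz)
  · obtain ⟨w, ⟨hw1, hw2⟩, rfl⟩ := hz
    have hwρ : w ∈ Metric.ball (0 : CE (Fin n)) ρ := Metric.closedBall_subset_ball h2ρ hw1
    have hzZ : D.σ w ∈ D.Z := ⟨w, hwρ, rfl⟩
    have m1 : 0 ≤ B6E.wsMol ν D.Psit (D.σ w) := by
      refine wsMol_ge_of_ball hloc fun y hy => ?_
      have hmem : D.σ w ∈ D.σ '' Metric.closedBall 0 (ρ / 2) := ⟨w, hw1, rfl⟩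
      have hyZ : y ∈ D.Z := hthick (Metric.ball_subset_thickening hmem δ
        (Metric.ball_subset_ball h3.le hy))
      rw [D.Psit_eq_of_mem_Z h12 hyZ]
      exact D.Ψ_nonneg y hyZ
    have m2 : -(3 * ((n : ℝ) + 1)) ≤ D.pb (poleW n ρ (1 / ((ν : ℝ) + 1))) (D.σ w) := by
      rw [D.pb_of_mem _ hzZ, D.τ_σ w hwρ]
      refine poleW_ge hρ hεν.le ?_
      rw [mem_ball_zero_iff, not_lt] at hw2
      exact hw2
    unfold phi
    have := mul_nonneg hk₀.le m1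
    have := sq_nonneg ‖D.σ w‖
    linarith
  · have m1 : B6E.wsMol ν D.Psit z ≤ D.m := wsMol_le_of_ball hloc fun y _ => D.Psit_le h0 h12 hρ y
    have m2 : D.pb (poleW n ρ (1 / ((ν : ℝ) + 1))) z ≤ 0 := by
      by_cases hzZ : z ∈ D.Z
      · rw [D.pb_of_mem _ hzZ]; exact poleW_nonpos _
      · rw [D.pb_of_not_mem _ hzZ]
    have m3 : ‖z‖ ^ 2 ≤ r₂ ^ 2 := pow_le_pow_left₀ (norm_nonneg _) (mem_ball_zero_iff.1 hz).le 2
    unfold phi
    have := mul_le_mul_of_nonneg_left m1 hk₀.le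
    linarith

theorem tendsto_exp_phi (h12 : r₂ < r₁) (hρ : 0 < ρ) (k₀ : ℝ) {z : CE (Fin n)} (hz : z ∈ Metric.ball (0 : CE (Fin n)) r₂) :
    Tendsto (fun ν => Real.exp (D.phi k₀ ν z)) atTop (𝓝 (D.Wt k₀ z)) := by
  have hzO : z ∈ Metric.ball (0 : CE (Fin n)) ((r₁ + r₂) / 2) := Metric.ball_subset_ball (by linarith) hz
  have h1 := wsMol_tendsto_of_continuousOn Metric.isOpen_ball (D.locallyIntegrable_Psit h12)
    (D.Psit_continuousOn h12) hzO
  rw [D.Psit_eq (Metric.ball_subset_closedBall hzO)] at h1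
  have h2 : Tendsto (fun ν : ℕ => Real.exp (k₀ * B6E.wsMol ν D.Psit z + ‖z‖ ^ 2)) atTop
      (𝓝 (Real.exp (k₀ * D.Ψ z + ‖z‖ ^ 2))) :=
    (Real.continuous_exp.tendsto _).comp ((h1.const_mul k₀).add_const _)
  have h3 : (fun ν => Real.exp (D.phi k₀ ν z)) = fun ν : ℕ => Real.exp (k₀ * B6E.wsMol ν D.Psit z + ‖z‖ ^ 2)
      * Real.exp (D.pb (poleW n ρ (1 / ((ν : ℝ) + 1))) z) := by
    funext ν
    rw [← Real.exp_add]
    unfold phi
    ring_nf
  rw [h3]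
  unfold Wt
  refine h2.mul ?_
  split_ifs with hzZ
  · simp only [D.pb_of_mem _ hzZ]
    exact tendsto_exp_poleW hρ _
  · simp only [D.pb_of_not_mem _ hzZ, Real.exp_zero]
    exact tendsto_const_nhds

theorem Wt_le (h12 : r₂ < r₁) {k₀ : ℝ} (hk : 0 ≤ k₀) {z : CE (Fin n)} (hz : z ∈ Metric.ball (0 : CE (Fin n)) r₂) :
    D.Wt k₀ z ≤ Real.exp (k₀ * D.m + r₂ ^ 2) := by
  unfold Wt
  have h1 : Real.exp (k₀ * D.Ψ z + ‖z‖ ^ 2) ≤ Real.exp (k₀ * D.m + r₂ ^ 2) :=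
    Real.exp_le_exp.2 (add_le_add
      (mul_le_mul_of_nonneg_left (D.Ψ_le z (Metric.ball_subset_ball h12.le hz)) hk)
      (pow_le_pow_left₀ (norm_nonneg _) (mem_ball_zero_iff.1 hz).le 2))
  refine (mul_le_mul h1 ?_ ?_ (Real.exp_pos _).le).trans (mul_one _).le
  · split_ifs
    · exact expPole_le_one _
    · exact le_rfl
  · split_ifs
    · exact expPole_nonneg _
    · exact zero_le_one

theorem Wt_pos (k₀ : ℝ) {z : CE (Fin n)} (hz : z ≠ 0) : 0 < D.Wt k₀ z := by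
  unfold Wt
  refine mul_pos (Real.exp_pos _) ?_
  split_ifs with hzZ
  · refine expPole_pos fun h => hz ?_
    rw [← D.σ_τ hzZ, h, D.σ_zero]
  · exact zero_lt_one

/-- near the pole `W ≤ L |z|^{2(n+1)}` (`L` depends on the data, this is harmless). -/
theorem Wt_pole (h0 : 0 < r₂) (h12 : r₂ < r₁) (hρ : 0 < ρ) (k₀ : ℝ) :
    ∃ L δ : ℝ, 0 < δ ∧ ∀ z ∈ Metric.ball (0 : CE (Fin n)) δ, D.Wt k₀ z ≤ L * ‖z‖ ^ (2 * (n + 1)) := by
  obtain ⟨A, hA⟩ := ((D.τ_differentiableAt (D.zero_mem_Z hρ)).isBigO_sub).bound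
  have hc : ContinuousAt (fun z => Real.exp (k₀ * D.Ψ z + ‖z‖ ^ 2)) 0 := by
    have h1 : ContinuousAt D.Ψ 0 := D.Ψ_cont.continuousAt (Metric.ball_mem_nhds 0 (by linarith))
    exact Real.continuous_exp.continuousAt.comp
      ((continuousAt_const.mul h1).add (continuous_norm.pow 2).continuousAt)
  obtain ⟨E, hE⟩ : ∃ E : ℝ, E = Real.exp (k₀ * D.Ψ 0 + ‖(0 : CE (Fin n))‖ ^ 2) + 1 := ⟨_, rfl⟩
  have hE0 : 0 ≤ E := by rw [hE]; positivity
  have hev : ∀ᶠ z in 𝓝 (0 : CE (Fin n)), Real.exp (k₀ * D.Ψ z + ‖z‖ ^ 2) < E :=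
    hc.tendsto.eventually (gt_mem_nhds (by rw [hE]; linarith))
  have hall := ((hA.and hev).and (D.τ_eventually_small hρ (by positivity : 0 < ρ / 5))).and
    (D.Z_open.mem_nhds (D.zero_mem_Z hρ))
  obtain ⟨δ, hδ, hb⟩ := Metric.eventually_nhds_iff_ball.1 hall
  refine ⟨E * (A ^ 2 / ρ ^ 2) ^ (n + 1), δ, hδ, fun z hz => ?_⟩
  obtain ⟨⟨⟨h1, h2⟩, h3⟩, h4⟩ := hb z hz
  have h4' : z ∈ D.Z := h4
  rw [D.τ_zero hρ, sub_zero, sub_zero] at h1
  unfold Wt
  rw [if_pos h4', expPole_eq hρ h3.le]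
  have h5 : (‖D.τ z‖ ^ 2 / ρ ^ 2) ^ (n + 1) ≤ ((A * ‖z‖) ^ 2 / ρ ^ 2) ^ (n + 1) :=
    pow_le_pow_left₀ (by positivity)
      (div_le_div_of_nonneg_right (pow_le_pow_left₀ (norm_nonneg _) h1 2) (by positivity)) _
  have h6 : ((A * ‖z‖) ^ 2 / ρ ^ 2) ^ (n + 1) = (A ^ 2 / ρ ^ 2) ^ (n + 1) * ‖z‖ ^ (2 * (n + 1)) := by
    rw [pow_mul, ← mul_pow]
    congr 1
    ring
  calc Real.exp (k₀ * D.Ψ z + ‖z‖ ^ 2) * (‖D.τ z‖ ^ 2 / ρ ^ 2) ^ (n + 1)
      ≤ E * ((A * ‖z‖) ^ 2 / ρ ^ 2) ^ (n + 1) := mul_le_mul h2.le h5 (by positivity) hE0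
    _ = E * (A ^ 2 / ρ ^ 2) ^ (n + 1) * ‖z‖ ^ (2 * (n + 1)) := by rw [h6, mul_assoc]

theorem Wt_aestronglyMeasurable (h12 : r₂ < r₁) (k₀ : ℝ) :
    AEStronglyMeasurable (D.Wt k₀) (volume.restrict (Metric.ball 0 r₂)) := by
  classical
  unfold Wt
  refine AEStronglyMeasurable.mul ?_ ?_
  · have hc : ContinuousOn (fun z => Real.exp (k₀ * D.Ψ z + ‖z‖ ^ 2)) (Metric.ball 0 r₂) :=
      Real.continuous_exp.comp_continuousOn
        ((continuousOn_const.mul (D.Ψ_cont.mono (Metric.ball_subset_ball h12.le))).add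
          (continuous_norm.pow 2).continuousOn)
    exact hc.aestronglyMeasurable Metric.isOpen_ball.measurableSet
  · refine AEStronglyMeasurable.mono_measure ?_ Measure.restrict_le_self
    refine AEStronglyMeasurable.piecewise (f := fun z => expPole n ρ (D.τ z)) (g := fun _ => (1 : ℝ))
      D.Z_open.measurableSet ?_ aestronglyMeasurable_const
    exact (expPole_measurable.comp_aemeasurable
      (D.τ_hol.continuousOn.aemeasurable D.Z_open.measurableSet)).aestronglyMeasurable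

end ExtData

/-! ### Hörmander -/

/-- the correction `v`. -/
theorem exists_solution (n : ℕ) {r₁ r₂ ρ κ : ℝ} (h0 : 0 < r₂) (h12 : r₂ < r₁) (hρ : 0 < ρ) (hκ : 0 < κ) :
    ∃ k₀ C₀ : ℝ, 0 < k₀ ∧ 0 < C₀ ∧ ∀ (D : ExtData n r₁ r₂ ρ κ) (l : Fin n → ℂ), ∑ k, ‖l k‖ ^ 2 = 1 →
      ∃ v : CE (Fin n) → ℂ, ContDiffOn ℝ ∞ v (Metric.ball 0 r₂) ∧
        (∀ z ∈ Metric.ball (0 : CE (Fin n)) r₂, ∀ j, dzb j v z = dzb j (D.aZ l) z) ∧
        IntegrableOn (fun z => ‖v z‖ ^ 2 / D.Wt k₀ z) (Metric.ball 0 r₂) ∧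
        ∫ z in Metric.ball (0 : CE (Fin n)) r₂, ‖v z‖ ^ 2 / D.Wt k₀ z ≤ C₀ := by
  classical
  obtain ⟨k₀, hk₀, hw⟩ := ExtData.ev_weights n h0 h12 hρ hκ
  obtain ⟨Cx, hCx, hbd⟩ := dzb_aW_bound n hρ
  obtain ⟨V, hV⟩ : ∃ V : ℝ, V = (volume (Metric.ball (0 : CE (Fin n)) r₂)).toReal := ⟨_, rfl⟩
  have hV0 : 0 ≤ V := by rw [hV]; exact ENNReal.toReal_nonneg
  refine ⟨k₀, Cx * Real.exp (3 * ((n : ℝ) + 1)) * V + 1, hk₀, by positivity, fun D l hl => ?_⟩
  obtain ⟨N, hN⟩ := eventually_atTop.1 (hw D)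
  obtain ⟨S, hS⟩ : ∃ S : Set (CE (Fin n)), S = D.σ '' (Metric.closedBall 0 (ρ / 2) \ Metric.ball 0 (ρ / 4)) :=
    ⟨_, rfl⟩
  have h2ρ : ρ / 2 < ρ := by linarith
  have hScomp : IsCompact S := by
    rw [hS]
    exact ((isCompact_closedBall _ _).diff Metric.isOpen_ball).image_of_continuousOn
      (D.σ_hol.continuousOn.mono (Set.sdiff_subset.trans (Metric.closedBall_subset_ball h2ρ)))
  have hSsub : S ⊆ D.σ '' Metric.closedBall 0 (ρ / 2) := by
    rw [hS]; exact Set.image_mono Set.sdiff_subset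
  have hSZ : S ⊆ D.Z := hSsub.trans (D.image_closedBall_subset h2ρ)
  have hSB : S ⊆ Metric.ball 0 r₂ := hSZ.trans D.Z_subset
  have hP : ∀ ν : ℕ, _ := fun ν => hN (ν + N) (Nat.le_add_left N ν)
  have ha2 : ∀ z, ContDiffAt ℝ 2 (D.aZ l) z := fun z =>
    ((D.aZ_contDiff hρ l).of_le lv_two_le_infty).contDiffAt
  have hind : ∀ ν : ℕ, (fun z => S.indicator (fun _ => Cx) z * Real.exp (-D.phi k₀ (ν + N) z))
      = S.indicator fun z => Cx * Real.exp (-D.phi k₀ (ν + N) z) := by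
    intro ν
    funext z
    by_cases hz : z ∈ S
    · rw [Set.indicator_of_mem hz, Set.indicator_of_mem hz]
    · rw [Set.indicator_of_notMem hz, Set.indicator_of_notMem hz, zero_mul]
  have hHint : ∀ ν : ℕ, IntegrableOn
      (fun z => S.indicator (fun _ => Cx) z * Real.exp (-D.phi k₀ (ν + N) z)) (Metric.ball 0 r₂) := by
    intro ν
    rw [hind]
    have hc : ContinuousOn (fun z => Cx * Real.exp (-D.phi k₀ (ν + N) z)) S :=
      continuousOn_const.mul (Real.continuous_exp.comp_continuousOn ((hP ν).1.continuousOn.mono hSB).neg)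
    exact ((hc.integrableOn_compact hScomp).integrable_indicator hScomp.measurableSet).integrableOn
  refine B6E.hormander_limit (Ω := Metric.ball 0 r₂) Metric.isOpen_ball (g := fun j => dzb j (D.aZ l))
    (fun j => (contDiff_dzb (D.aZ_contDiff hρ l)).contDiffOn) (fun z _ j k => dzb_dzb_comm (ha2 z))
    (r := fun _ => r₂) (fun _ => h0) (fun _ => subset_rfl)
    (fun K hK _ => Eventually.of_forall fun _ => hK) (φ := fun ν => D.phi k₀ (ν + N))
    (fun ν => (hP ν).1) (fun ν => (hP ν).2.1) (H := fun _ => S.indicator fun _ => Cx)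
    (fun _ z _ => Set.indicator_nonneg (fun _ _ => hCx.le) z) hHint ?_ ?_
    (D.Wt_aestronglyMeasurable h12 k₀) ?_ ?_
  · intro ν z _ v
    by_cases hzS : z ∈ S
    · rw [Set.indicator_of_mem hzS]
      refine (D.dzb_aZ_bound hρ (hbd l hl) (hSZ hzS) v).trans (mul_le_mul_of_nonneg_left ?_ hCx.le)
      have := ExtData.sdx_qf_nonneg ((hP ν).2.2.1 z (hSsub hzS)) v
      rw [lv_qf_sub] at this
      linarith
    · rw [Set.indicator_of_notMem hzS, zero_mul]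
      have : ∀ j, dzb j (D.aZ l) z = 0 := fun j => D.dzb_aZ_eq_zero hρ l (by rw [← hS]; exact hzS) j
      simp [this]
  · intro ν
    have h1 : ∫ z in Metric.ball (0 : CE (Fin n)) r₂,
        S.indicator (fun _ => Cx) z * Real.exp (-D.phi k₀ (ν + N) z)
        ≤ ∫ _z in Metric.ball (0 : CE (Fin n)) r₂, Cx * Real.exp (3 * ((n : ℝ) + 1)) := by
      refine setIntegral_mono_on (hHint ν) (integrableOn_const (by exact measure_ball_lt_top.ne))
        Metric.isOpen_ball.measurableSet fun z _ => ?_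
      by_cases hzS : z ∈ S
      · rw [Set.indicator_of_mem hzS]
        refine mul_le_mul_of_nonneg_left (Real.exp_le_exp.2 ?_) hCx.le
        have := (hP ν).2.2.2.1 z (by rw [← hS]; exact hzS)
        linarith
      · rw [Set.indicator_of_notMem hzS, zero_mul]
        positivity
    rw [setIntegral_const, smul_eq_mul, Measure.real, ← hV] at h1
    linarith
  · intro K hK _
    exact ⟨k₀ * D.m + r₂ ^ 2, Eventually.of_forall fun ν z hz => (hP ν).2.2.2.2 z (hK hz)⟩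
  · intro z hz
    exact (D.tendsto_exp_phi h12 hρ k₀ hz).comp (tendsto_add_atTop_nat N)

/-- the holomorphic extension with prescribed differential at `0` and polynomially bounded `L²` norm. -/
theorem exists_hol_extension (n : ℕ) (hn : 0 < n) {r₁ r₂ ρ κ : ℝ} (h0 : 0 < r₂) (h12 : r₂ < r₁) (hρ : 0 < ρ)
    (hκ : 0 < κ) :
    ∃ k₀ C₁ : ℝ, 0 < k₀ ∧ 0 < C₁ ∧ ∀ (D : ExtData n r₁ r₂ ρ κ) (l : Fin n → ℂ), ∑ k, ‖l k‖ ^ 2 = 1 →
      ∃ f : CE (Fin n) → ℂ, DifferentiableOn ℂ f (Metric.ball 0 r₂) ∧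
        (∀ e : CE (Fin n), fderiv ℂ f 0 e = linW l (fderiv ℂ D.τ 0 e)) ∧
        IntegrableOn (fun z => ‖f z‖ ^ 2) (Metric.ball 0 r₂) ∧
        ∫ z in Metric.ball (0 : CE (Fin n)) r₂, ‖f z‖ ^ 2 ≤ C₁ * Real.exp (k₀ * D.m) := by
  obtain ⟨k₀, C₀, hk₀, hC₀, hsol⟩ := exists_solution n h0 h12 hρ hκ
  obtain ⟨V, hV⟩ : ∃ V : ℝ, V = (volume (Metric.ball (0 : CE (Fin n)) r₂)).toReal := ⟨_, rfl⟩
  have hV0 : 0 ≤ V := by rw [hV]; exact ENNReal.toReal_nonneg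
  refine ⟨k₀, 2 * (ρ / 2) ^ 2 * V + 2 * Real.exp (r₂ ^ 2) * C₀, hk₀, by positivity, fun D l hl => ?_⟩
  obtain ⟨v, hv, hdv, hvi, hvb⟩ := hsol D l hl
  have hne : Nonempty (Fin n) := ⟨⟨0, hn⟩⟩
  have hBn : Metric.ball (0 : CE (Fin n)) r₂ ∈ 𝓝 (0 : CE (Fin n)) := Metric.ball_mem_nhds 0 h0
  have hac := D.aZ_contDiff hρ l
  have had : Differentiable ℝ (D.aZ l) := hac.differentiable (by simp)
  have hvd : DifferentiableOn ℝ v (Metric.ball 0 r₂) := hv.differentiableOn (by simp)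
  have hvdat : ∀ z ∈ Metric.ball (0 : CE (Fin n)) r₂, DifferentiableAt ℝ v z := fun z hz =>
    hvd.differentiableAt (Metric.isOpen_ball.mem_nhds hz)
  -- the pole
  obtain ⟨L, δ, hδ, hL⟩ := D.Wt_pole h0 h12 hρ k₀
  obtain ⟨δ', hδ'def⟩ : ∃ δ' : ℝ, δ' = min δ r₂ := ⟨_, rfl⟩
  have hδ' : 0 < δ' := by rw [hδ'def]; exact lt_min hδ h0
  have hsub1 : Metric.ball (0 : CE (Fin n)) δ' ⊆ Metric.ball 0 δ :=
    Metric.ball_subset_ball (by rw [hδ'def]; exact min_le_left _ _)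
  have hsub2 : Metric.ball (0 : CE (Fin n)) δ' ⊆ Metric.ball 0 r₂ :=
    Metric.ball_subset_ball (by rw [hδ'def]; exact min_le_right _ _)
  have hW0 : ∀ z, 0 ≤ D.Wt k₀ z := by
    intro z
    by_cases hz : z = 0
    · unfold ExtData.Wt
      refine mul_nonneg (Real.exp_pos _).le ?_
      split_ifs
      · exact expPole_nonneg _
      · exact zero_le_one
    · exact (D.Wt_pos k₀ hz).le
  have hint : IntegrableOn (fun z => ‖v z‖ ^ 2 / ‖z‖ ^ (2 * (Fintype.card (Fin n) + 1))) (Metric.ball 0 δ') := by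
    rw [Fintype.card_fin]
    have hnum : AEStronglyMeasurable (fun z => ‖v z‖ ^ 2) (volume.restrict (Metric.ball 0 δ')) :=
      ((hv.continuousOn.mono hsub2).norm.pow 2).aestronglyMeasurable Metric.isOpen_ball.measurableSet
    have hmeas : AEStronglyMeasurable (fun z => ‖v z‖ ^ 2 / ‖z‖ ^ (2 * (n + 1)))
        (volume.restrict (Metric.ball 0 δ')) :=
      (hnum.aemeasurable.div (measurable_norm.pow_const _).aemeasurable).aestronglyMeasurable
    refine Integrable.mono' ((hvi.mono_set hsub2).const_mul L) hmeas ?_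
    refine (ae_restrict_iff' Metric.isOpen_ball.measurableSet).2 (Eventually.of_forall fun z hz => ?_)
    rw [Real.norm_eq_abs, abs_of_nonneg (by positivity)]
    by_cases hz0 : z = 0
    · have h1 := hL z (hsub1 hz)
      rw [hz0, norm_zero, zero_pow (by omega), mul_zero] at h1
      have h2 : D.Wt k₀ 0 = 0 := le_antisymm h1 (hW0 0)
      rw [hz0, norm_zero, zero_pow (by omega), h2]
      simp
    · have hWp := D.Wt_pos k₀ hz0
      have hzp : 0 < ‖z‖ ^ (2 * (n + 1)) := pow_pos (norm_pos_iff.2 hz0) _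
      rw [div_le_iff₀ hzp]
      calc ‖v z‖ ^ 2 = ‖v z‖ ^ 2 / D.Wt k₀ z * D.Wt k₀ z := by field_simp
        _ ≤ ‖v z‖ ^ 2 / D.Wt k₀ z * (L * ‖z‖ ^ (2 * (n + 1))) :=
            mul_le_mul_of_nonneg_left (hL z (hsub1 hz)) (by positivity)
        _ = L * (‖v z‖ ^ 2 / D.Wt k₀ z) * ‖z‖ ^ (2 * (n + 1)) := by ring
  obtain ⟨hv0, hdv0⟩ := B6E.vanish_of_integrable_pole_real hδ' (hvdat 0 (Metric.mem_ball_self h0)) hint
  have hfhol : DifferentiableOn ℂ (fun z => D.aZ l z - v z) (Metric.ball 0 r₂) := by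
    refine differentiableOn_complex_of_dzb Metric.isOpen_ball (had.differentiableOn.sub hvd) fun z hz j => ?_
    rw [dzb_sub had.differentiableAt (hvdat z hz), hdv z hz j, sub_self]
  refine ⟨fun z => D.aZ l z - v z, hfhol, fun e => ?_, ?_⟩
  · obtain ⟨Lc, hLc⟩ : ∃ Lc : CE (Fin n) →L[ℂ] ℂ, ∀ w, Lc w = linW l w :=
      ⟨∑ k, l k • (EuclideanSpace.proj k : CE (Fin n) →L[ℂ] ℂ), fun w => by
        simp [linW]⟩
    have hvR : HasFDerivAt (𝕜 := ℝ) v (0 : CE (Fin n) →L[ℝ] ℂ) 0 := by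
      have := (hvdat 0 (Metric.mem_ball_self h0)).hasFDerivAt
      rwa [hdv0] at this
    have hvC : HasFDerivAt (𝕜 := ℂ) v (0 : CE (Fin n) →L[ℂ] ℂ) 0 := by
      rw [hasFDerivAt_iff_isLittleO_nhds_zero] at hvR ⊢
      simpa using hvR
    have h1 : HasFDerivAt (𝕜 := ℂ) (fun z => Lc (D.τ z)) (Lc.comp (fderiv ℂ D.τ 0)) 0 :=
      Lc.hasFDerivAt.comp 0 (D.τ_differentiableAt (D.zero_mem_Z hρ)).hasFDerivAt
    have h2 := h1.sub hvC
    have h3 : (fun z => D.aZ l z - v z) =ᶠ[𝓝 0] fun z => Lc (D.τ z) - v z := by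
      filter_upwards [D.aZ_eventuallyEq hρ l] with z hz
      rw [hz, hLc]
    rw [(h2.congr_of_eventuallyEq h3).fderiv, sub_zero, ContinuousLinearMap.comp_apply, hLc]
  · obtain ⟨Wm, hWm⟩ : ∃ Wm : ℝ, Wm = Real.exp (k₀ * D.m + r₂ ^ 2) := ⟨_, rfl⟩
    have hWm0 : 0 < Wm := by rw [hWm]; exact Real.exp_pos _
    have hpt : ∀ z ∈ Metric.ball (0 : CE (Fin n)) r₂,
        ‖D.aZ l z - v z‖ ^ 2 ≤ 2 * (ρ / 2) ^ 2 + 2 * Wm * (‖v z‖ ^ 2 / D.Wt k₀ z) := by
      intro z hz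
      have h1 : ‖D.aZ l z - v z‖ ^ 2 ≤ 2 * ‖D.aZ l z‖ ^ 2 + 2 * ‖v z‖ ^ 2 := by
        have h2 := norm_sub_le (D.aZ l z) (v z)
        have h3 : ‖D.aZ l z - v z‖ ^ 2 ≤ (‖D.aZ l z‖ + ‖v z‖) ^ 2 := pow_le_pow_left₀ (norm_nonneg _) h2 2
        nlinarith [sq_nonneg (‖D.aZ l z‖ - ‖v z‖)]
      have h4 : ‖D.aZ l z‖ ^ 2 ≤ (ρ / 2) ^ 2 := pow_le_pow_left₀ (norm_nonneg _) (D.norm_aZ_le hρ hl z) 2
      have h5 : ‖v z‖ ^ 2 ≤ Wm * (‖v z‖ ^ 2 / D.Wt k₀ z) := by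
        by_cases hz0 : z = 0
        · rw [hz0, hv0]; simp
        · have hWp := D.Wt_pos k₀ hz0
          calc ‖v z‖ ^ 2 = D.Wt k₀ z * (‖v z‖ ^ 2 / D.Wt k₀ z) := by field_simp
            _ ≤ Wm * (‖v z‖ ^ 2 / D.Wt k₀ z) :=
                mul_le_mul_of_nonneg_right (by rw [hWm]; exact D.Wt_le h12 hk₀.le hz) (by positivity)
      nlinarith
    have hGi : IntegrableOn (fun z => 2 * (ρ / 2) ^ 2 + 2 * Wm * (‖v z‖ ^ 2 / D.Wt k₀ z)) (Metric.ball 0 r₂) :=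
      (integrableOn_const (by exact measure_ball_lt_top.ne)).add (hvi.const_mul _)
    have hfi : IntegrableOn (fun z => ‖D.aZ l z - v z‖ ^ 2) (Metric.ball 0 r₂) := by
      refine Integrable.mono' hGi
        ((hfhol.continuousOn.norm.pow 2).aestronglyMeasurable Metric.isOpen_ball.measurableSet) ?_
      refine (ae_restrict_iff' Metric.isOpen_ball.measurableSet).2 (Eventually.of_forall fun z hz => ?_)
      rw [Real.norm_eq_abs, abs_of_nonneg (by positivity)]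
      exact hpt z hz
    refine ⟨hfi, ?_⟩
    have h1 := setIntegral_mono_on hfi hGi Metric.isOpen_ball.measurableSet hpt
    have hci : IntegrableOn (fun _ : CE (Fin n) => 2 * (ρ / 2) ^ 2) (Metric.ball 0 r₂) :=
      integrableOn_const (by exact measure_ball_lt_top.ne)
    rw [integral_add hci (hvi.const_mul _), setIntegral_const,
      integral_const_mul, smul_eq_mul, Measure.real, ← hV] at h1
    have h2 : Wm = Real.exp (k₀ * D.m) * Real.exp (r₂ ^ 2) := by rw [hWm, Real.exp_add]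
    have h3 : 1 ≤ Real.exp (k₀ * D.m) := Real.one_le_exp (mul_nonneg hk₀.le (D.m_nonneg h0 h12 hρ))
    have h4 : 2 * Wm * ∫ z in Metric.ball (0 : CE (Fin n)) r₂, ‖v z‖ ^ 2 / D.Wt k₀ z ≤ 2 * Wm * C₀ :=
      mul_le_mul_of_nonneg_left hvb (by positivity)
    have h5 : 0 ≤ 2 * (ρ / 2) ^ 2 * V := by positivity
    calc ∫ z in Metric.ball (0 : CE (Fin n)) r₂, ‖D.aZ l z - v z‖ ^ 2
        ≤ V * (2 * (ρ / 2) ^ 2) + 2 * Wm * C₀ := by linarith
      _ ≤ (2 * (ρ / 2) ^ 2 * V + 2 * Real.exp (r₂ ^ 2) * C₀) * Real.exp (k₀ * D.m) := by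
          rw [h2]; nlinarith

/-! ### interior estimate -/

/-- `|f'(0)| ≤ C(n,R) ‖f‖_{L²(ball 0 R)}`. -/
theorem l2_cauchy (n : ℕ) {R : ℝ} (hR : 0 < R) : ∃ C : ℝ, 0 < C ∧ ∀ f : CE (Fin n) → ℂ,
    DifferentiableOn ℂ f (Metric.ball 0 R) → IntegrableOn (fun z => ‖f z‖ ^ 2) (Metric.ball 0 R) →
    ‖fderiv ℂ f 0‖ ^ 2 ≤ C * ∫ z in Metric.ball (0 : CE (Fin n)) R, ‖f z‖ ^ 2 := by
  obtain ⟨r, hr⟩ : ∃ r : ℝ, r = R / 3 := ⟨_, rfl⟩
  have hr0 : 0 < r := by rw [hr]; positivity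
  obtain ⟨w, hw⟩ : ∃ w : ℝ, w = (volume : Measure (CE (Fin n))).real (Metric.closedBall 0 r) := ⟨_, rfl⟩
  have hw0 : 0 < w := by
    rw [hw]
    exact ENNReal.toReal_pos (Metric.measure_closedBall_pos _ _ hr0).ne'
      (isCompact_closedBall _ _).measure_lt_top.ne
  refine ⟨(w * r ^ 2)⁻¹, by positivity, fun f hf hi => ?_⟩
  obtain ⟨I, hI⟩ : ∃ I : ℝ, I = ∫ z in Metric.ball (0 : CE (Fin n)) R, ‖f z‖ ^ 2 := ⟨_, rfl⟩
  have hI0 : 0 ≤ I := by
    rw [hI]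
    exact setIntegral_nonneg Metric.isOpen_ball.measurableSet fun z _ => by positivity
  have hev : ∀ z ∈ Metric.ball (0 : CE (Fin n)) R, ∀ᶠ y in 𝓝 z, DifferentiableAt ℂ f y := fun z hz =>
    hol_eventually_of_differentiableOn Metric.isOpen_ball hf hz
  have hpsh : PshOn (Metric.ball 0 R) (fun z => ‖f z‖ ^ 2) :=
    pshOn_of_levi Metric.isOpen_ball (fun z hz => (lv_contDiffAt_normSq f (hev z hz)).contDiffWithinAt)
      (fun z hz => levi_normSq_hol_posSemidef f (hev z hz))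
  have hpt : ∀ z ∈ Metric.ball (0 : CE (Fin n)) r, ‖f z‖ ≤ Real.sqrt (I / w) := by
    intro z hz
    have hsub : Metric.closedBall z r ⊆ Metric.ball 0 R := by
      intro y hy
      rw [mem_ball_zero_iff] at hz ⊢
      rw [Metric.mem_closedBall, dist_eq_norm] at hy
      have := norm_add_le (y - z) z
      rw [sub_add_cancel] at this
      rw [hr] at hz hy
      linarith
    have h1 := hpsh.le_average_closedBall Metric.isOpen_ball hr0 hsub
    have h2 : (volume : Measure (CE (Fin n))).real (Metric.closedBall z r) = w := by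
      rw [hw]; simp only [Measure.real, Measure.addHaar_closedBall_center]
    rw [setAverage_eq, smul_eq_mul, h2] at h1
    have h3 : ∫ y in Metric.closedBall z r, ‖f y‖ ^ 2 ≤ I := by
      rw [hI]
      exact setIntegral_mono_set hi (Eventually.of_forall fun y => by positivity) hsub.eventuallyLE
    refine Real.le_sqrt_of_sq_le (h1.trans ?_)
    rw [div_eq_inv_mul]
    exact mul_le_mul_of_nonneg_left h3 (by positivity)
  have h4 := scv_norm_fderiv_le hr0 (hf.mono (Metric.ball_subset_ball (by rw [hr]; linarith))) hpt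
  rw [← hI]
  calc ‖fderiv ℂ f 0‖ ^ 2 ≤ (Real.sqrt (I / w) / r) ^ 2 := pow_le_pow_left₀ (norm_nonneg _) h4 2
    _ = (w * r ^ 2)⁻¹ * I := by
        rw [div_pow, Real.sq_sqrt (by positivity)]
        field_simp

/-- **the extension theorem.** -/
theorem sd_extension (n : ℕ) (hn : 0 < n) {r₁ r₂ ρ κ : ℝ} (h0 : 0 < r₂) (h12 : r₂ < r₁) (hρ : 0 < ρ) (hκ : 0 < κ) :
    ∃ C k : ℝ, 0 < C ∧ 0 < k ∧ ∀ (D : ExtData n r₁ r₂ ρ κ) (e : CE (Fin n)),
      ‖fderiv ℂ D.τ 0 e‖ ≤ C * Real.exp (k * D.m) * ‖e‖ := by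
  obtain ⟨k₀, C₁, hk₀, hC₁, hext⟩ := exists_hol_extension n hn h0 h12 hρ hκ
  obtain ⟨C₂, hC₂, hcau⟩ := l2_cauchy n h0
  refine ⟨Real.sqrt (C₂ * C₁), k₀ / 2, Real.sqrt_pos.2 (mul_pos hC₂ hC₁), by positivity, fun D e => ?_⟩
  obtain ⟨y, hy⟩ : ∃ y, y = fderiv ℂ D.τ 0 e := ⟨_, rfl⟩
  rw [← hy]
  rcases eq_or_ne y 0 with h | h
  · rw [h, norm_zero]; positivity
  have hy0 : 0 < ‖y‖ := norm_pos_iff.2 h
  have hsum : ∑ k, ‖y k‖ ^ 2 = ‖y‖ ^ 2 := (EuclideanSpace.norm_sq_eq y).symm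
  have hl : ∑ k, ‖(conj (y k) / ((‖y‖ : ℝ) : ℂ))‖ ^ 2 = 1 := by
    have : ∀ k, ‖(conj (y k) / ((‖y‖ : ℝ) : ℂ))‖ ^ 2 = ‖y k‖ ^ 2 / ‖y‖ ^ 2 := by
      intro k
      rw [norm_div, RCLike.norm_conj, Complex.norm_real, norm_norm, div_pow]
    simp only [this]
    rw [← Finset.sum_div, hsum, div_self (by positivity)]
  obtain ⟨f, hf, hdf, hfi, hfb⟩ := hext D _ hl
  have h1 : fderiv ℂ f 0 e = ((‖y‖ : ℝ) : ℂ) := by
    rw [hdf e, ← hy, linW]
    have : ∀ k, conj (y k) / ((‖y‖ : ℝ) : ℂ) * y k = ((‖y k‖ ^ 2 / ‖y‖ : ℝ) : ℂ) := by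
      intro k
      have h2 : conj (y k) * y k = ((‖y k‖ ^ 2 : ℝ) : ℂ) := by
        rw [mul_comm, Complex.mul_conj, Complex.normSq_eq_norm_sq]
      rw [div_mul_eq_mul_div, h2]; push_cast; rfl
    simp only [this]
    rw [← Complex.ofReal_sum, ← Finset.sum_div, hsum]
    congr 1
    field_simp
  have h2 : ‖y‖ ≤ ‖fderiv ℂ f 0‖ * ‖e‖ := by
    have := (fderiv ℂ f 0).le_opNorm e
    rwa [h1, Complex.norm_real, norm_norm] at this
  have h3 : ‖fderiv ℂ f 0‖ ≤ Real.sqrt (C₂ * C₁) * Real.exp (k₀ / 2 * D.m) := by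
    have h4 := (hcau f hf hfi).trans (mul_le_mul_of_nonneg_left hfb hC₂.le)
    have h5 : C₂ * (C₁ * Real.exp (k₀ * D.m)) = (Real.sqrt (C₂ * C₁) * Real.exp (k₀ / 2 * D.m)) ^ 2 := by
      rw [mul_pow, Real.sq_sqrt (mul_pos hC₂ hC₁).le, ← Real.exp_nat_mul]
      push_cast
      rw [show (2 : ℝ) * (k₀ / 2 * D.m) = k₀ * D.m by ring]; ring
    rw [h5] at h4
    exact abs_le_of_sq_le_sq' h4 (by positivity) |>.2
  exact h2.trans (mul_le_mul_of_nonneg_right h3 (norm_nonneg _))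

end Claimed.Agent.R316.SD
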