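import Claimed.Agent.R316.CM.StdMetric
import Claimed.Agent.R316.Pack024

/-!
# Row 316, S7-3 (static distortion, Lemma 7.3), geometric half 1: the standing situation and the inverse branch ("sheet", `charts.tex` l.436-446)

Owner: helper84.  ALL PROVED (no open proof left in this file).

`Sit 𝓜 g r c δ c₁ C₁ Φ Θ`: `Φ : ball 0 r → M` an immersed chart with `Φ^* g ≥ c`, `Θ : ball 0 δ → M` a holomorphic parametrisation centred at `p = Φ 0` with `c₁ ≤ Θ^* g ≤ C₁`.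
`tauW Φ Θ δ = Θ⁻¹ ∘ Φ` on `domW Φ Θ r δ = ball 0 r ∩ Φ⁻¹ (Θ (ball 0 δ))`.

* `exists_sheet`: the sheet `σ` is the lift of `Θ | ball 0 ρ` through the immersed chart `Φ` given by the lifting theorem `tr7_lift` (helper248, `S7/Trans/Lift.lean`); no ODE is needed
  (the former pure lemma `exists_inverse_branch` = SD-GEO-1 is dropped).
* `hdist_sheet_le`: `hdist_le_integral_param` in the parametrisation `id` along `t ↦ σ (t w)`; `qf (g Φ (σ (t w))) (d/dt σ (t w)) = qf (g Θ (t w)) w ≤ C₁ |w|²` by `IsLocBihol.qf_trans` and the chain rule for `τ ∘ σ = id`.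
-/

set_option autoImplicit false
set_option linter.unusedSectionVars false
open scoped ContDiff ComplexOrder Topology Matrix

namespace Claimed.Agent.R316.SD

section pure

variable {ι : Type} [Fintype ι]

/-- chain rule for a holomorphic section. -/
theorem fderiv_section {D : Set (CE ι)} (hD : IsOpen D) {τ σ : CE ι → CE ι} (hτ : DifferentiableOn ℂ τ D)
    {ρ : ℝ} (hσ : DifferentiableOn ℂ σ (Metric.ball 0 ρ)) (hm : Set.MapsTo σ (Metric.ball 0 ρ) D)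
    (hτσ : ∀ w ∈ Metric.ball (0 : CE ι) ρ, τ (σ w) = w) {w : CE ι} (hw : w ∈ Metric.ball (0 : CE ι) ρ) (v : CE ι) :
    fderiv ℂ τ (σ w) (fderiv ℂ σ w v) = v := by
  have hnb := Metric.isOpen_ball.mem_nhds hw
  have h1 : HasFDerivAt (τ ∘ σ) ((fderiv ℂ τ (σ w)).comp (fderiv ℂ σ w)) w :=
    HasFDerivAt.comp w ((hτ _ (hm hw)).differentiableAt (hD.mem_nhds (hm hw))).hasFDerivAt
      ((hσ w hw).differentiableAt hnb).hasFDerivAt
  have h2 : HasFDerivAt (τ ∘ σ) (ContinuousLinearMap.id ℂ (CE ι)) w := by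
    refine (hasFDerivAt_id w).congr_of_eventuallyEq ?_
    filter_upwards [hnb] with y hy
    exact hτσ y hy
  exact congrArg (fun L : CE ι →L[ℂ] CE ι => L v) (h1.unique h2)

/-- the image of a holomorphic section of a holomorphic map is open. -/
theorem isOpen_image_of_section {D : Set (CE ι)} (hD : IsOpen D) {τ σ : CE ι → CE ι} (hτ : DifferentiableOn ℂ τ D)
    {ρ : ℝ} (hσ : DifferentiableOn ℂ σ (Metric.ball 0 ρ)) (hm : Set.MapsTo σ (Metric.ball 0 ρ) D)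
    (hτσ : ∀ w ∈ Metric.ball (0 : CE ι) ρ, τ (σ w) = w) : IsOpen (σ '' Metric.ball 0 ρ) := by
  refine scv_isOpen_image Metric.isOpen_ball hσ fun w hw => ?_
  exact Function.LeftInverse.injective (g := fderiv ℂ τ (σ w)) (fderiv_section hD hτ hσ hm hτσ hw)

end pure

section sit

variable {V : Type} [NormedAddCommGroup V] [NormedSpace ℝ V] [FiniteDimensional ℝ V]
variable {ι : Type} [Fintype ι] [DecidableEq ι]

/-- the transition `Θ⁻¹ ∘ Φ`. -/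
noncomputable def tauW (Φ Θ : CE ι → V) (δ : ℝ) : CE ι → CE ι := Function.invFunOn Θ (Metric.ball 0 δ) ∘ Φ

/-- its domain. -/
def domW (Φ Θ : CE ι → V) (r δ : ℝ) : Set (CE ι) := Metric.ball 0 r ∩ Φ ⁻¹' (Θ '' Metric.ball 0 δ)

/-- the standing situation of Lemma 7.3. -/
structure Sit (𝓜 : CMfd V ι) (g : HFam V ι) (r c δ c₁ C₁ : ℝ) (Φ Θ : CE ι → V) : Prop where
  r_pos : 0 < r
  c_pos : 0 < c
  δ_pos : 0 < δ
  c₁_pos : 0 < c₁
  C₁_pos : 0 < C₁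
  kahler : IsKahler 𝓜 g
  bisec : BisecPos 𝓜 g
  Φ_loc : IsLocBihol 𝓜 Φ (Metric.ball 0 r)
  Φ_low : ∀ z ∈ Metric.ball (0 : CE ι) r, leM (cI c) (g Φ z)
  Θ_hol : 𝓜.IsHol Θ (Metric.ball 0 δ)
  Θ_zero : Θ 0 = Φ 0
  Θ_low : ∀ w ∈ Metric.ball (0 : CE ι) δ, leM (cI c₁) (g Θ w)
  Θ_up : ∀ w ∈ Metric.ball (0 : CE ι) δ, leM (g Θ w) (cI C₁)

/-- `qf (c I) v = c |v|²`. -/
theorem qf_cI (c : ℝ) (v : CE ι) : qf (cI c) v = c * ‖v‖ ^ 2 := by
  rw [cI, qf_smul, tr7_norm_sq_eq_qf_one]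

namespace Sit

variable {𝓜 : CMfd V ι} {g : HFam V ι} {r c δ c₁ C₁ : ℝ} {Φ Θ : CE ι → V} (S : Sit 𝓜 g r c δ c₁ C₁ Φ Θ)

/-- the ball with the pulled back structure. -/
abbrev mfd (S : Sit 𝓜 g r c δ c₁ C₁ Φ Θ) : CMfd (CE ι) ι := stdMfd (Metric.ball 0 r) S.Φ_loc.isOpen

include S

theorem isConnected_ball : IsConnected (Metric.ball (0 : CE ι) r) :=
  (convex_ball (0 : CE ι) r).isConnected ⟨0, Metric.mem_ball_self S.r_pos⟩

theorem isOpen_domW : IsOpen (domW Φ Θ r δ) := S.Φ_loc.isOpen_overlap S.Θ_hol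

theorem zero_mem_domW : (0 : CE ι) ∈ domW Φ Θ r δ :=
  ⟨Metric.mem_ball_self S.r_pos, 0, Metric.mem_ball_self S.δ_pos, S.Θ_zero⟩

theorem tau_hol : DifferentiableOn ℂ (tauW Φ Θ δ) (domW Φ Θ r δ) := S.Φ_loc.trans_differentiableOn S.Θ_hol

theorem tau_zero : tauW Φ Θ δ 0 = 0 := by
  show Function.invFunOn Θ (Metric.ball 0 δ) (Φ 0) = 0
  rw [← S.Θ_zero]
  exact (𝓜.isParam S.Θ_hol).leftInv (Metric.mem_ball_self S.δ_pos)

theorem tau_mem {z : CE ι} (hz : z ∈ domW Φ Θ r δ) : tauW Φ Θ δ z ∈ Metric.ball (0 : CE ι) δ :=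
  Function.invFunOn_mem hz.2

theorem Θ_tau {z : CE ι} (hz : z ∈ domW Φ Θ r δ) : Θ (tauW Φ Θ δ z) = Φ z :=
  Function.invFunOn_eq hz.2

theorem qf_eq {z : CE ι} (hz : z ∈ domW Φ Θ r δ) (v : CE ι) :
    qf (g Φ z) v = qf (g Θ (tauW Φ Θ δ z)) (fderiv ℂ (tauW Φ Θ δ) z v) :=
  S.Φ_loc.qf_trans S.kahler.toIsMetric.toIsHForm S.Θ_hol hz v

/-- `c₁ |dτ v|² ≤ |v|²_{Φ^* g}`. -/
theorem tau_upper {z : CE ι} (hz : z ∈ domW Φ Θ r δ) (v : CE ι) :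
    c₁ * ‖fderiv ℂ (tauW Φ Θ δ) z v‖ ^ 2 ≤ qf (g Φ z) v := by
  rw [S.qf_eq hz, ← qf_cI]
  exact qf_mono (S.Θ_low _ (S.tau_mem hz)) _

/-- `|v|²_{Φ^* g} ≤ C₁ |dτ v|²`. -/
theorem qf_le {z : CE ι} (hz : z ∈ domW Φ Θ r δ) (v : CE ι) :
    qf (g Φ z) v ≤ C₁ * ‖fderiv ℂ (tauW Φ Θ δ) z v‖ ^ 2 := by
  rw [S.qf_eq hz, ← qf_cI]
  exact qf_mono (S.Θ_up _ (S.tau_mem hz)) _

/-- `√(c/C₁) |v| ≤ |dτ v|`. -/
theorem tau_lower {z : CE ι} (hz : z ∈ domW Φ Θ r δ) (v : CE ι) :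
    Real.sqrt (c / C₁) * ‖v‖ ≤ ‖fderiv ℂ (tauW Φ Θ δ) z v‖ := by
  have h1 : c * ‖v‖ ^ 2 ≤ qf (g Φ z) v := by
    rw [← qf_cI]; exact qf_mono (S.Φ_low z hz.1) _
  have h2 := S.qf_le hz v
  have h3 : c / C₁ * ‖v‖ ^ 2 ≤ ‖fderiv ℂ (tauW Φ Θ δ) z v‖ ^ 2 := by
    rw [div_mul_eq_mul_div, div_le_iff₀ S.C₁_pos]; linarith
  calc Real.sqrt (c / C₁) * ‖v‖ = Real.sqrt (c / C₁ * ‖v‖ ^ 2) := by
        rw [Real.sqrt_mul' _ (sq_nonneg _), Real.sqrt_sq (norm_nonneg _)]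
    _ ≤ Real.sqrt (‖fderiv ℂ (tauW Φ Θ δ) z v‖ ^ 2) := Real.sqrt_le_sqrt h3
    _ = _ := Real.sqrt_sq (norm_nonneg _)

theorem sqrt_mul_sqrt : Real.sqrt (c / C₁) * Real.sqrt (C₁ / c) = 1 := by
  rw [← Real.sqrt_mul (div_pos S.c_pos S.C₁_pos).le, div_mul_div_comm, mul_comm C₁ c,
    div_self (mul_pos S.c_pos S.C₁_pos).ne', Real.sqrt_one]

/-- **the sheet** (the lifting theorem `tr7_lift` of helper248 applied to `Θ`). -/
theorem exists_sheet {ρ : ℝ} (hρ : 0 < ρ) (hρδ : ρ ≤ δ) (hρr : ρ ≤ Real.sqrt (c / C₁) * (r / 2)) :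
    ∃ σ : CE ι → CE ι, DifferentiableOn ℂ σ (Metric.ball 0 ρ) ∧ σ 0 = 0 ∧
      Set.MapsTo σ (Metric.ball 0 ρ) (domW Φ Θ r δ) ∧
      (∀ w ∈ Metric.ball (0 : CE ι) ρ, tauW Φ Θ δ (σ w) = w) ∧
      (∀ w ∈ Metric.ball (0 : CE ι) ρ, Real.sqrt (c / C₁) * ‖σ w‖ ≤ ‖w‖) := by
  have hsub : Metric.ball (0 : CE ι) ρ ⊆ Metric.ball 0 δ := Metric.ball_subset_ball hρδ
  have hΘ : IsLocBihol 𝓜 Θ (Metric.ball 0 ρ) :=
    (isLocBihol_of_isHol S.Θ_hol).mono Metric.isOpen_ball hsub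
  have hs0 : 0 ≤ Real.sqrt (C₁ / c) := Real.sqrt_nonneg _
  have hs1 := S.sqrt_mul_sqrt
  have hsmall : ‖(0 : CE ι)‖ + Real.sqrt (C₁ / c) * ρ < r := by
    rw [norm_zero, zero_add]
    have h1 : Real.sqrt (C₁ / c) * ρ ≤ Real.sqrt (C₁ / c) * (Real.sqrt (c / C₁) * (r / 2)) :=
      mul_le_mul_of_nonneg_left hρr hs0
    have h2 : Real.sqrt (C₁ / c) * (Real.sqrt (c / C₁) * (r / 2)) = r / 2 := by
      rw [← mul_assoc, mul_comm (Real.sqrt (C₁ / c)), hs1, one_mul]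
    have := S.r_pos
    linarith
  obtain ⟨F, hF, hF0, hFb⟩ := tr7_lift S.kahler.toIsMetric.toIsHForm S.Φ_loc hΘ (convex_ball 0 ρ) S.c_pos S.Φ_low
    (fun z hz => S.Θ_up z (hsub hz)) (Metric.mem_ball_self hρ) S.Θ_zero.symm
    (fun z hz => by rw [sub_zero]; exact (mem_ball_zero_iff.1 hz).le) hsmall
  refine ⟨F, hF.differentiableOn S.Φ_loc hΘ, hF0, fun w hw => ⟨hF.maps hw, w, hsub hw, (hF.eq w hw).symm⟩, ?_, ?_⟩
  · intro w hw
    show Function.invFunOn Θ (Metric.ball 0 δ) (Φ (F w)) = w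
    rw [hF.eq w hw]
    exact (𝓜.isParam S.Θ_hol).leftInv (hsub hw)
  · intro w hw
    have h1 := hFb w hw
    rw [sub_zero, sub_zero] at h1
    calc Real.sqrt (c / C₁) * ‖F w‖ ≤ Real.sqrt (c / C₁) * (Real.sqrt (C₁ / c) * ‖w‖) :=
          mul_le_mul_of_nonneg_left h1 (Real.sqrt_nonneg _)
      _ = ‖w‖ := by rw [← mul_assoc, hs1, one_mul]

/-- points of the sheet are close to the centre in the pulled back distance. -/
theorem hdist_sheet_le {ρ : ℝ} (hρδ : ρ ≤ δ) {σ : CE ι → CE ι} (hσ : DifferentiableOn ℂ σ (Metric.ball 0 ρ))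
    (hσ0 : σ 0 = 0) (hm : Set.MapsTo σ (Metric.ball 0 ρ) (domW Φ Θ r δ))
    (hτσ : ∀ w ∈ Metric.ball (0 : CE ι) ρ, tauW Φ Θ δ (σ w) = w) {w : CE ι} (hw : w ∈ Metric.ball (0 : CE ι) ρ) :
    hdist S.mfd (pullF Φ g) 0 (σ w) ≤ Real.sqrt C₁ * ‖w‖ := by
  have hmet : IsMetric S.mfd (pullF Φ g) := isMetric_pullF S.Φ_loc S.kahler.toIsMetric
  have hseg : ∀ t ∈ Set.Icc (0 : ℝ) 1, t • w ∈ Metric.ball (0 : CE ι) ρ := by
    intro t ht
    rw [mem_ball_zero_iff] at hw ⊢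
    rw [norm_smul, Real.norm_eq_abs, abs_of_nonneg ht.1]
    exact (mul_le_of_le_one_left (norm_nonneg _) ht.2).trans_lt hw
  set cc : ℝ → CE ι := fun t => σ (t • w) with hcc
  have hlin : ∀ t : ℝ, HasDerivAt (fun t : ℝ => t • w) w t := fun t => by
    have h := (hasDerivAt_id t).smul_const w
    rw [one_smul] at h
    exact h
  have hd : ∀ t ∈ Set.Icc (0 : ℝ) 1, HasDerivAt cc (fderiv ℂ σ (t • w) w) t := by
    intro t ht
    have h1 : HasFDerivAt σ ((fderiv ℂ σ (t • w)).restrictScalars ℝ) (t • w) :=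
      ((hσ _ (hseg t ht)).differentiableAt (Metric.isOpen_ball.mem_nhds (hseg t ht))).hasFDerivAt.restrictScalars ℝ
    exact h1.comp_hasDerivAt t (hlin t)
  have hc1 : ContDiffOn ℝ 1 cc (Set.Icc 0 1) := by
    have h1 : ContDiffOn ℝ 1 σ (Metric.ball 0 ρ) := (hol_contDiffOn_real Metric.isOpen_ball hσ).of_le (by norm_cast)
    have h2 : ContDiffOn ℝ 1 (fun t : ℝ => t • w) (Set.Icc 0 1) := (contDiff_id.smul contDiff_const).contDiffOn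
    exact h1.comp h2 hseg
  have hb := hdist_le_integral_param hmet (stdMfd_isHol_id S.Φ_loc.isOpen) (c := cc) zero_le_one hc1
    (fun t ht => (hm (hseg t ht)).1)
  have e0 : cc 0 = 0 := by simp [hcc, hσ0]
  have e1 : cc 1 = σ w := by simp [hcc]
  simp only [id, e0, e1] at hb
  refine hb.trans ((le_abs_self _).trans ?_)
  have hbound := intervalIntegral.norm_integral_le_of_norm_le_const (a := (0 : ℝ)) (b := 1) (C := Real.sqrt C₁ * ‖w‖)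
    (f := fun t => Real.sqrt (qf (pullF Φ g id (cc t)) (derivWithin cc (Set.Icc 0 1) t : CE ι))) ?_
  · simpa using hbound
  · intro t ht
    rw [Set.uIoc_of_le zero_le_one] at ht
    have ht' : t ∈ Set.Icc (0 : ℝ) 1 := ⟨ht.1.le, ht.2⟩
    rw [(hd t ht').hasDerivWithinAt.derivWithin (uniqueDiffOn_Icc zero_lt_one t ht'), Real.norm_eq_abs,
      abs_of_nonneg (Real.sqrt_nonneg _), pullF_id]
    have h1 := S.qf_le (hm (hseg t ht')) (fderiv ℂ σ (t • w) w)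
    rw [fderiv_section S.isOpen_domW S.tau_hol hσ hm hτσ (hseg t ht')] at h1
    calc Real.sqrt (qf (g Φ (cc t)) (fderiv ℂ σ (t • w) w)) ≤ Real.sqrt (C₁ * ‖w‖ ^ 2) := Real.sqrt_le_sqrt h1
      _ = _ := by rw [Real.sqrt_mul' _ (sq_nonneg _), Real.sqrt_sq (norm_nonneg _)]

end Sit

end sit

end Claimed.Agent.R316.SD
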