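import Claimed.Agent.R316.S7.H1.Griff
import Claimed.Agent.R316.S7.SD.Sheet

/-!
# Row 316, S7-3 (static distortion, Lemma 7.3), geometric half 2: the logarithmic dual norm `ψ = log |α|²` (`charts.tex` l.333-362)

Owner: helper84.  ALL PROVED (no open proof left in this file).

`H : CE ι → Matrix ι ι ℂ` smooth positive definite on the open set `O` (column convention `|X|² = Xᴴ H X = qf (H z) X`).  For a constant vector `v` the constant covector `α = \bar v` has squared dual norm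
`dualN H v z = vᴴ H(z)⁻¹ v = qf (H z)⁻¹ v` (`= dnorm H (z, \bar v)` of `S7/H1/Griff.lean`), its metric dual is `u = H⁻¹ v`, `|u|²_H = dualN`.
`psiW H v z = log (dualN H v z / dualN H v 0)` (the normalisation `|α|(0) = 1` of the paper).

* SD-GEO-3 (pure matrix algebra): `dualN_pos`, `dualN_le`, `sq_le_dualN_mul`, `qf_inv_mulVec`, `dualN_eq_dnorm`, `psiW_zero`, `psiW_le`  (`CW/MatAlg.lean`: `qf_cauchy_schwarz`, `exists_sqrt_posDef`, `qf_mono`, ...).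
* SD-GEO-4 (Wirtinger calculus): `contDiffOn_dualN`, `contDiffOn_psiW`, `levi_log_dualN_ge`, `levi_psiW_ge`.
  Proof of `levi_log_dualN_ge` from `qf_levi_dnorm` (helper126).  Put `N = dualN H v`, `ξ = \bar v`, `p = (x, ξ)`.  The map `T (y, μ) = (y, (1 + μ) ξ)`, `CE ι × ℂ → CE (ι ⊕ ι)`, is affine holomorphic and `dnorm H (T (y, μ)) = |1 + μ|² N y`.
  Hence for all `μ : ℂ`:  `qf (levi N x) X + 2 Re (\bar μ ∂_X N) + |μ|² N x = qf (levi (dnorm H) p) (X, μ ξ) = |μ ξ - Γ|² + G ≥ G`,  `G = qf (griffM H x X) (H⁻¹ v)`, `∂_X N = ∑ X_k ∂_k N`.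
  Choose `μ = - ∂_X N / N x`:  `qf (levi N x) X - |∂_X N|² / N x ≥ G`, and the left side is `N x · qf (levi (log N) x) X` (`levi_log`, `qf_grad10_outer`).
  (Alternative: direct computation as in the header of `Griff.lean`.)
* SD-GEO-5: the lemmas on `Sit` (glue: `bisec_eq_griffM`, `IsLocBihol.posDef`, `IsLocBihol.contDiffOn_form`, `IsLocBihol.bisec_pos`).
-/

set_option autoImplicit false
set_option linter.unusedSectionVars false
open scoped ContDiff ComplexOrder Topology Matrix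

namespace Claimed.Agent.R316.SD

section pure

variable {ι : Type} [Fintype ι] [DecidableEq ι]
variable {H : CE ι → Matrix ι ι ℂ} {O : Set (CE ι)}

/-- squared dual norm of the constant covector `\bar v`. -/
noncomputable def dualN (H : CE ι → Matrix ι ι ℂ) (v : ι → ℂ) (z : CE ι) : ℝ := qf (H z)⁻¹ v

/-- the normalised logarithmic dual norm. -/
noncomputable def psiW (H : CE ι → Matrix ι ι ℂ) (v : ι → ℂ) (z : CE ι) : ℝ :=
  Real.log (dualN H v z / dualN H v 0)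

/-! #### SD-GEO-3 -/

theorem posDef_cI {c : ℝ} (hc : 0 < c) : (cI c : Matrix ι ι ℂ).PosDef :=
  posDef_smul_real hc Matrix.PosDef.one

theorem posDef_of_leM_cI {A : Matrix ι ι ℂ} {c : ℝ} (hc : 0 < c) (h : leM (cI c) A) : A.PosDef :=
  posDef_of_loewner (posDef_cI hc) h

theorem mul_normSq_le_qf {A : Matrix ι ι ℂ} {c : ℝ} (h : leM (cI c) A) (v : ι → ℂ) :
    c * ∑ j, ‖v j‖ ^ 2 ≤ qf A v := by
  have := qf_mono h v
  rwa [cI, qf_smul, qf_one] at this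

theorem qf_le_mul_normSq {A : Matrix ι ι ℂ} {C : ℝ} (h : leM A (cI C)) (v : ι → ℂ) :
    qf A v ≤ C * ∑ j, ‖v j‖ ^ 2 := by
  have := qf_mono h v
  rwa [cI, qf_smul, qf_one] at this

theorem sum_normSq_of_unit {v : ι → ℂ} (hv : star v ⬝ᵥ v = 1) : ∑ j, ‖v j‖ ^ 2 = 1 := by
  rw [← qf_one, qf_def, Matrix.one_mulVec, hv, Complex.one_re]

theorem dualN_pos {z : CE ι} (hp : (H z).PosDef) {v : ι → ℂ} (hv : v ≠ 0) : 0 < dualN H v z :=
  qf_pos hp.inv hv

/-- `H ≥ c` implies `H⁻¹ ≤ 1/c`. -/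
theorem dualN_le {z : CE ι} {c : ℝ} (hc : 0 < c) (h : leM (cI c) (H z)) (v : ι → ℂ) :
    dualN H v z ≤ (∑ j, ‖v j‖ ^ 2) / c := by
  have h1 := qf_mono (loewner_inv_anti (posDef_cI hc) h) v
  have e : (cI c : Matrix ι ι ℂ)⁻¹ = (((c⁻¹ : ℝ) : ℂ)) • (1 : Matrix ι ι ℂ) := by
    rw [cI, forms_inv_smul, inv_one, Complex.ofReal_inv]
  rw [e, qf_smul, qf_one] at h1
  rw [div_eq_inv_mul]
  exact h1

/-- Cauchy-Schwarz: `|v|⁴ ≤ (vᴴ H⁻¹ v) (vᴴ H v)`. -/
theorem sq_le_dualN_mul {z : CE ι} (hp : (H z).PosDef) (v : ι → ℂ) :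
    (∑ j, ‖v j‖ ^ 2) ^ 2 ≤ dualN H v z * qf (H z) v := by
  have h := dual_cauchy_schwarz hp (star v) v
  rw [qf_transpose, star_star] at h
  have e : ∑ k, (star v) k * v k = ((∑ j, ‖v j‖ ^ 2 : ℝ) : ℂ) := by
    push_cast
    refine Finset.sum_congr rfl fun k _ => ?_
    rw [Pi.star_apply, Complex.star_def, Complex.conj_mul']
  rw [e, Complex.norm_real, Real.norm_eq_abs, sq_abs] at h
  exact h

/-- the metric dual `u = H⁻¹ v` has `|u|²_H = dualN`. -/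
theorem qf_inv_mulVec {z : CE ι} (hp : (H z).PosDef) (v : ι → ℂ) :
    qf (H z) ((H z)⁻¹ *ᵥ v) = dualN H v z := R316.qf_inv_mulVec hp v

theorem dualN_eq_dnorm (H : CE ι → Matrix ι ι ℂ) (v : ι → ℂ) (z : CE ι) :
    dualN H v z = dnorm H (dJoin z (WithLp.toLp 2 (star v))) := by
  rw [dnorm, dBase_dJoin, dFib_dJoin, qf_transpose]
  show qf (H z)⁻¹ v = qf (H z)⁻¹ (star (star v))
  rw [star_star]

theorem psiW_zero (hp : (H 0).PosDef) {v : ι → ℂ} (hv : v ≠ 0) : psiW H v 0 = 0 := by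
  rw [psiW, div_self (dualN_pos hp hv).ne', Real.log_one]

/-- `ψ ≤ log (|v|²_{H(0)} / c)` for a Euclidean unit vector `v`. -/
theorem psiW_le {c : ℝ} (hc : 0 < c) (hp : (H 0).PosDef) {z : CE ι} (h : leM (cI c) (H z)) {v : ι → ℂ}
    (hv : ∑ j, ‖v j‖ ^ 2 = 1) : psiW H v z ≤ Real.log (qf (H 0) v / c) := by
  have hv0 : v ≠ 0 := by
    rintro rfl
    simp at hv
  have h1 := dualN_le hc h v
  rw [hv] at h1
  have h2 := sq_le_dualN_mul hp v
  rw [hv, one_pow] at h2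
  have h3 := dualN_pos hp hv0
  have h4 := dualN_pos (posDef_of_leM_cI hc h) hv0
  have h5 : 0 < qf (H 0) v := qf_pos hp hv0
  refine Real.log_le_log (div_pos h4 h3) ?_
  rw [div_le_div_iff₀ h3 hc]
  calc dualN H v z * c ≤ 1 / c * c := mul_le_mul_of_nonneg_right h1 hc.le
    _ = 1 := by field_simp
    _ ≤ dualN H v 0 * qf (H 0) v := h2
    _ = qf (H 0) v * dualN H v 0 := mul_comm _ _

/-! #### SD-GEO-4 -/

theorem contDiffOn_dualN (hO : IsOpen O) (hs : ∀ j k, ContDiffOn ℝ ∞ (fun x => H x j k) O)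
    (hpos : ∀ x ∈ O, (H x).PosDef) (v : ι → ℂ) : ContDiffOn ℝ ∞ (dualN H v) O :=
  contDiffOn_qf (contDiffOn_matInv_of_posDef hs hpos) (fun _ => contDiffOn_const)

theorem contDiffOn_psiW (hO : IsOpen O) (hs : ∀ j k, ContDiffOn ℝ ∞ (fun x => H x j k) O)
    (hpos : ∀ x ∈ O, (H x).PosDef) (h0 : (0 : CE ι) ∈ O) {v : ι → ℂ} (hv : v ≠ 0) :
    ContDiffOn ℝ ∞ (psiW H v) O :=
  ((contDiffOn_dualN hO hs hpos v).div_const _).log fun x hx =>
    (div_pos (dualN_pos (hpos x hx) hv) (dualN_pos (hpos 0 h0) hv)).ne'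

theorem contDiffAt_dualN (hO : IsOpen O) (hs : ∀ j k, ContDiffOn ℝ ∞ (fun x => H x j k) O)
    (hpos : ∀ x ∈ O, (H x).PosDef) {x : CE ι} (hx : x ∈ O) (v : ι → ℂ) : ContDiffAt ℝ 2 (dualN H v) x :=
  ((contDiffOn_dualN hO hs hpos v).contDiffAt (hO.mem_nhds hx)).of_le lv_two_le_infty

/-- the Levi form of the dual norm of a constant covector. -/
theorem qf_levi_dualN (hO : IsOpen O) (hs : ∀ j k, ContDiffOn ℝ ∞ (fun x => H x j k) O)
    (hpos : ∀ x ∈ O, (H x).PosDef) {x : CE ι} (hx : x ∈ O) (v X : ι → ℂ) :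
    qf (levi (dualN H v) x) X =
      qf (H x)⁻¹ (griff_B H x X *ᵥ ((H x)⁻¹ *ᵥ v)) + qf (griffM H x X) ((H x)⁻¹ *ᵥ v) := by
  set p : CE (ι ⊕ ι) := dJoin x (WithLp.toLp 2 (star v)) with hp
  have hb : dBase p = x := dBase_dJoin _ _
  have hf : star (dFib p) = v := by
    rw [hp, dFib_dJoin]
    show star (star v) = v
    rw [star_star]
  have hpO : dBase p ∈ O := by rw [hb]; exact hx
  have hline : ∀ (Y : CE ι) (s : ℝ), dnorm H (p + s • dJoin Y (0 : CE ι)) = dualN H v (x + s • Y) := by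
    intro Y s
    rw [griff_dnorm_line, hb, hf]
    have : star ((0 : CE ι) : ι → ℂ) = 0 := by
      funext j; simp
    rw [this, smul_zero, add_zero, dualN]
  have h1 := qf_levi_line (contDiffAt_dualN hO hs hpos hx v) (WithLp.toLp 2 X)
  have h2 := qf_levi_line (griff_contDiffAt_dnorm hO hs hpos hpO) (dJoin (WithLp.toLp 2 X) (0 : CE ι))
  rw [griff_I_dJoin, smul_zero] at h2
  simp only [hline] at h2
  have h3 := griff_qf_levi hO hs hpos hpO (WithLp.toLp 2 X) (0 : CE ι)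
  rw [hb, hf] at h3
  have e0 : star ((0 : CE ι) : ι → ℂ) = 0 := by
    funext j; simp
  rw [e0, zero_sub, qf_neg_vec] at h3
  have h4 : qf (levi (dualN H v) x) X = qf (levi (dnorm H) p) (dJoin (WithLp.toLp 2 X) (0 : CE ι)) :=
    h1.trans h2.symm
  rw [h4]
  exact h3

/-- `∂_l (aᵀ M(y) b) = aᵀ (∂_l M) b` for constant vectors. -/
theorem dz_dot_mulVec {M : CE ι → Matrix ι ι ℂ} {x : CE ι}
    (hM : ∀ j k, DifferentiableAt ℝ (fun w => M w j k) x) (a b : ι → ℂ) (l : ι) :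
    dz l (fun y => a ⬝ᵥ (M y *ᵥ b)) x = a ⬝ᵥ (dzM l M x *ᵥ b) := by
  simp only [dotProduct, Matrix.mulVec]
  have h1 : ∀ j, DifferentiableAt ℝ (fun w => ∑ k, M w j k * b k) x := fun j =>
    DifferentiableAt.fun_sum fun k _ => (hM j k).mul_const _
  rw [dz_sum _ _ fun j _ => (h1 j).const_mul _]
  refine Finset.sum_congr rfl fun j _ => ?_
  rw [dz_const_mul _ (h1 j), dz_sum _ _ fun k _ => (hM j k).mul_const _]
  congr 1
  refine Finset.sum_congr rfl fun k _ => ?_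
  rw [dz_mul_const _ (hM j k)]
  rfl

/-- the gradient of the dual norm. -/
theorem grad10_dualN (hO : IsOpen O) (hs : ∀ j k, ContDiffOn ℝ ∞ (fun x => H x j k) O)
    (hpos : ∀ x ∈ O, (H x).PosDef) {x : CE ι} (hx : x ∈ O) (v : ι → ℂ) (l : ι) :
    grad10 (dualN H v) x l = - (star ((H x)⁻¹ *ᵥ v) ⬝ᵥ (dzM l H x *ᵥ ((H x)⁻¹ *ᵥ v))) := by
  have hd : ∀ j k, DifferentiableAt ℝ (fun w => H w j k) x := fun j k =>
    ((hs j k).contDiffAt (hO.mem_nhds hx)).differentiableAt (by simp)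
  have hdi : ∀ j k, DifferentiableAt ℝ (fun w => (H w)⁻¹ j k) x := fun j k =>
    ((contDiffOn_matInv_of_posDef hs hpos j k).contDiffAt (hO.mem_nhds hx)).differentiableAt (by simp)
  have hev : (fun y => ((dualN H v y : ℝ) : ℂ)) =ᶠ[𝓝 x] fun y => star v ⬝ᵥ ((H y)⁻¹ *ᵥ v) := by
    filter_upwards [hO.mem_nhds hx] with y hy
    exact qf_ofReal _ (hpos y hy).inv.isHermitian
  rw [grad10_apply, dz_congr hev, dz_dot_mulVec hdi, dzM_inv hd (hpos x hx).det_pos.ne', Matrix.neg_mulVec,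
    dotProduct_neg, ← Matrix.mulVec_mulVec, ← Matrix.mulVec_mulVec, Matrix.dotProduct_mulVec, Matrix.star_mulVec,
    (hpos x hx).inv.isHermitian.eq]

theorem sum_grad10_dualN (hO : IsOpen O) (hs : ∀ j k, ContDiffOn ℝ ∞ (fun x => H x j k) O)
    (hpos : ∀ x ∈ O, (H x).PosDef) {x : CE ι} (hx : x ∈ O) (v X : ι → ℂ) :
    ∑ l, grad10 (dualN H v) x l * X l = - (star ((H x)⁻¹ *ᵥ v) ⬝ᵥ (griff_A H x X *ᵥ ((H x)⁻¹ *ᵥ v))) := by
  simp only [grad10_dualN hO hs hpos hx, griff_A, Matrix.sum_mulVec, dotProduct_sum, Matrix.smul_mulVec,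
    dotProduct_smul, smul_eq_mul, neg_mul, Finset.sum_neg_distrib]
  congr 1
  exact Finset.sum_congr rfl fun l _ => mul_comm _ _

/-- Cauchy-Schwarz for the gradient. -/
theorem normSq_sum_grad10_dualN_le (hO : IsOpen O) (hs : ∀ j k, ContDiffOn ℝ ∞ (fun x => H x j k) O)
    (hpos : ∀ x ∈ O, (H x).PosDef) {x : CE ι} (hx : x ∈ O) (v X : ι → ℂ) :
    ‖∑ l, grad10 (dualN H v) x l * X l‖ ^ 2 ≤
      qf (H x)⁻¹ (griff_B H x X *ᵥ ((H x)⁻¹ *ᵥ v)) * dualN H v x := by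
  rw [sum_grad10_dualN hO hs hpos hx, norm_neg]
  have h := qf_cauchy_schwarz (hpos x hx).inv.posSemidef (griff_B H x X *ᵥ ((H x)⁻¹ *ᵥ v)) v
  have e : star (griff_B H x X *ᵥ ((H x)⁻¹ *ᵥ v)) ⬝ᵥ ((H x)⁻¹ *ᵥ v) =
      star ((H x)⁻¹ *ᵥ v) ⬝ᵥ (griff_A H x X *ᵥ ((H x)⁻¹ *ᵥ v)) := by
    rw [Matrix.star_mulVec, ← griff_A_conjTranspose (griff_herm_nhds hO hpos hx), Matrix.conjTranspose_conjTranspose,
      ← Matrix.dotProduct_mulVec]
  rw [e] at h
  exact h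

/-- **curvature formula for the logarithmic dual norm**, as an inequality:
`|α|² dd log |α|² (X, \bar X) ≥ Θ(X, \bar X)(u, \bar u)`, `u` the metric dual of `α`. -/
theorem levi_log_dualN_ge (hO : IsOpen O) (hs : ∀ j k, ContDiffOn ℝ ∞ (fun x => H x j k) O)
    (hpos : ∀ x ∈ O, (H x).PosDef) {x : CE ι} (hx : x ∈ O) {v : ι → ℂ} (hv : v ≠ 0) (X : ι → ℂ) :
    qf (griffM H x X) ((H x)⁻¹ *ᵥ v) ≤
      dualN H v x * qf (levi (fun y => Real.log (dualN H v y)) x) X := by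
  have hN := dualN_pos (hpos x hx) hv
  have hN2 := contDiffAt_dualN hO hs hpos hx v
  set N := dualN H v with hNdef
  have e : levi (fun y => Real.log (N y)) x = (((N x)⁻¹ : ℝ) : ℂ) • levi N x -
      ((((N x) ^ 2)⁻¹ : ℝ) : ℂ) • Matrix.of fun j k => (starRingEnd ℂ) (grad10 N x j) * grad10 N x k := by
    ext j k
    rw [levi_log hN2 hN.ne']
    simp only [Matrix.sub_apply, Matrix.smul_apply, Matrix.of_apply, smul_eq_mul]
    push_cast
    ring
  rw [e, qf_sub, qf_smul, qf_smul, qf_grad10_outer, qf_levi_dualN hO hs hpos hx]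
  have h1 := normSq_sum_grad10_dualN_le hO hs hpos hx v X
  rw [← hNdef] at h1
  set b := ‖∑ l, grad10 N x l * X l‖ ^ 2 with hb
  set Q := qf (H x)⁻¹ (griff_B H x X *ᵥ ((H x)⁻¹ *ᵥ v)) with hQ
  set G := qf (griffM H x X) ((H x)⁻¹ *ᵥ v) with hG
  have h2 : N x * ((N x)⁻¹ * (Q + G) - ((N x) ^ 2)⁻¹ * b) = Q + G - b / N x := by
    field_simp
  rw [h2]
  have h3 : b / N x ≤ Q := by
    rw [div_le_iff₀ hN]; exact h1
  linarith

theorem levi_psiW_ge (hO : IsOpen O) (hs : ∀ j k, ContDiffOn ℝ ∞ (fun x => H x j k) O)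
    (hpos : ∀ x ∈ O, (H x).PosDef) (h0 : (0 : CE ι) ∈ O) {x : CE ι} (hx : x ∈ O) {v : ι → ℂ} (hv : v ≠ 0)
    (X : ι → ℂ) :
    qf (griffM H x X) ((H x)⁻¹ *ᵥ v) ≤ dualN H v x * qf (levi (psiW H v) x) X := by
  have e : psiW H v =ᶠ[𝓝 x] fun y => Real.log (dualN H v y) + (- Real.log (dualN H v 0)) := by
    filter_upwards [hO.mem_nhds hx] with y hy
    rw [psiW, Real.log_div (dualN_pos (hpos y hy) hv).ne' (dualN_pos (hpos 0 h0) hv).ne', sub_eq_add_neg]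
  rw [levi_congr e, levi_add_const]
  exact levi_log_dualN_ge hO hs hpos hx hv X

end pure

/-! ### SD-GEO-5 -/

section sit

variable {V : Type} [NormedAddCommGroup V] [NormedSpace ℝ V] [FiniteDimensional ℝ V]
variable {ι : Type} [Fintype ι] [DecidableEq ι]
variable {𝓜 : CMfd V ι} {g : HFam V ι} {r c δ c₁ C₁ : ℝ} {Φ Θ : CE ι → V} (S : Sit 𝓜 g r c δ c₁ C₁ Φ Θ)

namespace Sit

include S

theorem form_smooth (j k : ι) : ContDiffOn ℝ ∞ (fun x => g Φ x j k) (Metric.ball 0 r) :=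
  S.Φ_loc.contDiffOn_form S.kahler.toIsMetric.toIsHForm j k

theorem form_posDef : ∀ x ∈ Metric.ball (0 : CE ι) r, (g Φ x).PosDef :=
  fun _ hx => S.Φ_loc.posDef S.kahler.toIsMetric hx

theorem zero_mem_ball : (0 : CE ι) ∈ Metric.ball (0 : CE ι) r := Metric.mem_ball_self S.r_pos

theorem psi_smooth {v : ι → ℂ} (hv : v ≠ 0) : ContDiffOn ℝ ∞ (psiW (g Φ) v) (Metric.ball 0 r) :=
  contDiffOn_psiW Metric.isOpen_ball S.form_smooth S.form_posDef S.zero_mem_ball hv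

theorem psi_zero {v : ι → ℂ} (hv : v ≠ 0) : psiW (g Φ) v 0 = 0 :=
  psiW_zero (S.form_posDef 0 S.zero_mem_ball) hv

theorem psi_le {v : ι → ℂ} (hv : ∑ j, ‖v j‖ ^ 2 = 1) {z : CE ι} (hz : z ∈ Metric.ball (0 : CE ι) r) :
    psiW (g Φ) v z ≤ Real.log (qf (g Φ 0) v / c) :=
  psiW_le S.c_pos (S.form_posDef 0 S.zero_mem_ball) (S.Φ_low z hz) hv

/-- (7.5) `dd ψ ≥ κ Φ^* g` where the bisectional curvature is `≥ κ`. -/
theorem psi_levi_strict {v : ι → ℂ} (hv : v ≠ 0) {z : CE ι} (hz : z ∈ Metric.ball (0 : CE ι) r) {κ : ℝ}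
    (hκ : ∀ a b : ι → ℂ, κ * (qf (g Φ z) a * qf (g Φ z) b) ≤ R316.bisec g Φ z a b) (X : ι → ℂ) :
    κ * qf (g Φ z) X ≤ qf (levi (psiW (g Φ) v) z) X := by
  have h1 := levi_psiW_ge Metric.isOpen_ball S.form_smooth S.form_posDef S.zero_mem_ball hz hv X
  rw [← bisec_eq_griffM] at h1
  have h2 := hκ ((g Φ z)⁻¹ *ᵥ v) X
  rw [qf_inv_mulVec (S.form_posDef z hz)] at h2
  have hN := dualN_pos (S.form_posDef z hz) hv
  have h3 : dualN (g Φ) v z * (κ * qf (g Φ z) X) ≤ dualN (g Φ) v z * qf (levi (psiW (g Φ) v) z) X := by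
    calc dualN (g Φ) v z * (κ * qf (g Φ z) X) = κ * (dualN (g Φ) v z * qf (g Φ z) X) := by ring
      _ ≤ _ := h2.trans h1
  exact le_of_mul_le_mul_left h3 hN

/-- `ψ` is plurisubharmonic. -/
theorem psi_levi_nonneg {v : ι → ℂ} (hv : v ≠ 0) {z : CE ι} (hz : z ∈ Metric.ball (0 : CE ι) r) :
    (levi (psiW (g Φ) v) z).PosSemidef := by
  have hc : ContDiffAt ℝ 2 (psiW (g Φ) v) z :=
    ((S.psi_smooth hv).contDiffAt (Metric.isOpen_ball.mem_nhds hz)).of_le lv_two_le_infty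
  rw [levi_posSemidef_iff hc]
  intro X
  have h := S.psi_levi_strict hv hz (κ := 0) (fun a b => ?_) X
  · simpa using h
  · rw [zero_mul]
    by_cases ha : a = 0
    · subst ha; simp [R316.bisec]
    by_cases hb : b = 0
    · subst hb; simp [R316.bisec]
    exact (S.Φ_loc.bisec_pos S.bisec hz ha hb).le

end Sit

end sit

end Claimed.Agent.R316.SD
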