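import Claimed.Agent.R316.Pack016
import Claimed.Agent.R316.S7.SD.Ext
import Claimed.Agent.R316.S7.SD.Weight
import Claimed.Agent.R316.S7.SD.Env

/-!
# Row 316, S7-3: **Lemma 7.3 (static distortion)**, assembly

Owner: helper84.  `st73 : St73 𝓜 g`, glue of
* `S7/SD/Ext.lean` (`sd_extension`: weighted `L²` extension, pure `ℂⁿ`),
* `S7/SD/Sheet.lean` (`Sit`, the inverse branch), `S7/SD/Weight.lean` (`psiW`), `S7/SD/Env.lean` (moving ball envelope),
* `CM/Std.lean`, `CM/StdMetric.lean` (pulled back manifold, uniform charts, uniform curvature).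

Constants: `K⁺ = hcball o (R₀ + 1) ⊇` unit neighbourhood of `K`; `κ₁` = curvature bound on `K⁺`; `δ, c₁, C₁` = uniform charts on `K`; `r₀ = min (1/2) (√c r/16)`; `ρ = min (δ/2) (r₀/√C₁)`;
`r₁ = r/2`, `r₂ = r/4`, `κ = κ₁ c₁`, `m = log (|v|²_g / c)`.
Leaf SD-GEO-9: `qf_levi_normSq_hol`, `contDiffOn_normSq_hol` (pure calculus: `levi_comp_hol`, `hol_contDiffOn_real`).
-/

set_option autoImplicit false
set_option linter.unusedSectionVars false
open scoped ContDiff ComplexOrder Topology Matrix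
open Filter

namespace Claimed.Agent.R316.SD

/-! ### SD-GEO-9 and arithmetic -/

section pure

variable {ι : Type} [Fintype ι] [DecidableEq ι]

theorem contDiffOn_normSq_hol {O : Set (CE ι)} (hO : IsOpen O) {τ : CE ι → CE ι} (hτ : DifferentiableOn ℂ τ O)
    (a : ℝ) : ContDiffOn ℝ 2 (fun y => a * ‖τ y‖ ^ 2) O :=
  contDiffOn_const.mul (((hol_contDiffOn_real hO hτ).of_le lv_two_le_infty).norm_sq ℂ)

theorem qf_levi_normSq_hol {O : Set (CE ι)} (hO : IsOpen O) {τ : CE ι → CE ι} (hτ : DifferentiableOn ℂ τ O)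
    (a : ℝ) {z : CE ι} (hz : z ∈ O) (X : CE ι) :
    qf (levi (fun y => a * ‖τ y‖ ^ 2) z) X = a * ‖fderiv ℂ τ z X‖ ^ 2 := by
  have h1 : ContDiffAt ℝ 2 (fun y => ‖τ y‖ ^ 2) z := by
    have := (contDiffOn_normSq_hol hO hτ 1).contDiffAt (hO.mem_nhds hz)
    simpa using this
  have h2 : ContDiffAt ℝ 2 (fun w : CE ι => ‖w‖ ^ 2) (τ z) :=
    (contDiff_normSq_CE.of_le lv_two_le_infty).contDiffAt
  rw [levi_const_mul a h1, qf_smul, levi_comp_holOn τ (fun w => ‖w‖ ^ 2) hO hτ hz h2, levi_normSq, qf_conj, qf_one]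
  congr 1
  rw [EuclideanSpace.norm_sq_eq]
  refine Finset.sum_congr rfl fun k _ => ?_
  rw [← jac_mulVec]

end pure

theorem sd_arith {A₀ k c a2 b : ℝ} (hA₀ : 0 < A₀) (hk : 0 < k) (hc : 0 < c) (ha : 0 < a2)
    (hb : b ≤ A₀ * Real.exp (k * Real.log (a2 / c))) :
    b ≤ max (A₀ * c ^ (-k)) (2 * k) * (1 + Real.sqrt a2) ^ (max (A₀ * c ^ (-k)) (2 * k)) := by
  set s := Real.sqrt a2 with hs
  have hs0 : 0 < s := Real.sqrt_pos.2 ha
  have ha2 : a2 = s ^ 2 := (Real.sq_sqrt ha.le).symm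
  have h1 : Real.exp (k * Real.log (a2 / c)) = s ^ (2 * k) * c ^ (-k) := by
    rw [mul_comm k, ← Real.rpow_def_of_pos (div_pos ha hc), Real.div_rpow ha.le hc.le, Real.rpow_neg hc.le,
      ha2, ← Real.rpow_natCast s 2, ← Real.rpow_mul hs0.le]
    norm_num
    rfl
  rw [h1] at hb
  have hck : 0 < c ^ (-k) := Real.rpow_pos_of_pos hc _
  have h2 : s ^ (2 * k) ≤ (1 + s) ^ (2 * k) :=
    Real.rpow_le_rpow hs0.le (by linarith) (by positivity)
  have h3 : (1 + s) ^ (2 * k) ≤ (1 + s) ^ (max (A₀ * c ^ (-k)) (2 * k)) :=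
    Real.rpow_le_rpow_of_exponent_le (by linarith) (le_max_right _ _)
  have h4 : 0 < (1 + s) ^ (max (A₀ * c ^ (-k)) (2 * k)) := Real.rpow_pos_of_pos (by linarith) _
  calc b ≤ A₀ * (s ^ (2 * k) * c ^ (-k)) := hb
    _ = (A₀ * c ^ (-k)) * s ^ (2 * k) := by ring
    _ ≤ (A₀ * c ^ (-k)) * (1 + s) ^ (max (A₀ * c ^ (-k)) (2 * k)) :=
        mul_le_mul_of_nonneg_left (h2.trans h3) (by positivity)
    _ ≤ _ := mul_le_mul_of_nonneg_right (le_max_left _ _) h4.le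

/-- radius of the moving balls. -/
noncomputable def rZero (r c : ℝ) : ℝ := min (1 / 2) (Real.sqrt c * r / 16)

/-- radius of the sheet (in the target coordinates). -/
noncomputable def rhoW (r c δ C₁ : ℝ) : ℝ := min (δ / 2) (rZero r c / Real.sqrt C₁)

theorem rZero_pos {r c : ℝ} (hr : 0 < r) (hc : 0 < c) : 0 < rZero r c :=
  lt_min (by norm_num) (by have := Real.sqrt_pos.2 hc; positivity)

theorem rhoW_pos {r c δ C₁ : ℝ} (hr : 0 < r) (hc : 0 < c) (hδ : 0 < δ) (hC₁ : 0 < C₁) : 0 < rhoW r c δ C₁ :=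
  lt_min (by positivity) (div_pos (rZero_pos hr hc) (Real.sqrt_pos.2 hC₁))

section sit

variable {V : Type} [NormedAddCommGroup V] [NormedSpace ℝ V] [FiniteDimensional ℝ V]
variable {n : ℕ}
variable {𝓜 : CMfd V (Fin n)} {g : HFam V (Fin n)} {r c δ c₁ C₁ : ℝ} {Φ Θ : CE (Fin n) → V}

namespace Sit

variable (S : Sit 𝓜 g r c δ c₁ C₁ Φ Θ)

include S

theorem isMetric_pull : IsMetric S.mfd (pullF Φ g) := isMetric_pullF S.Φ_loc S.kahler.toIsMetric

/-- the envelope setting. -/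
theorem envSetting {v : Fin n → ℂ} (hv : v ≠ 0) :
    EnvSetting S.mfd (pullF Φ g) (Metric.ball 0 r) (Metric.ball 0 (r / 2)) (psiW (g Φ) v) (rZero r c) where
  kahler := isKahler_pullF S.Φ_loc S.kahler
  bisec := bisecPos_pullF S.Φ_loc S.bisec
  conn := S.isConnected_ball
  carrier := rfl
  hol_id := stdMfd_isHol_id _
  r₀_pos := rZero_pos S.r_pos S.c_pos
  ψ_smooth := S.psi_smooth hv
  U_open := Metric.isOpen_ball
  U_sub := Metric.ball_subset_ball (by have := S.r_pos; linarith)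
  compact := by
    intro z hz
    have hr := S.r_pos
    have hsc : 0 < Real.sqrt c := Real.sqrt_pos.2 S.c_pos
    refine isCompact_hcball_std S.Φ_loc.isOpen S.isConnected_ball S.isMetric_pull S.c_pos S.Φ_low
      (Metric.ball_subset_ball (by linarith) hz) ?_
    have h1 : 2 * rZero r c / Real.sqrt c ≤ r / 8 := by
      rw [div_le_iff₀ hsc]
      have : rZero r c ≤ Real.sqrt c * r / 16 := min_le_right _ _
      nlinarith
    intro y hy
    rw [Metric.mem_closedBall, dist_eq_norm] at hy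
    rw [Metric.mem_ball, dist_zero_right] at hz ⊢
    calc ‖y‖ = ‖(y - z) + z‖ := by rw [sub_add_cancel]
      _ ≤ ‖y - z‖ + ‖z‖ := norm_add_le _ _
      _ < r := by linarith

/-- **the data of the extension theorem.**  `κ₁` is a lower bound of the bisectional curvature at the points of pulled back distance `≤ 1` from the centre. -/
theorem exists_extData {κ₁ : ℝ} (hκ₁ : 0 < κ₁)
    (hκ : ∀ z ∈ Metric.ball (0 : CE (Fin n)) r, hdist S.mfd (pullF Φ g) 0 z ≤ 1 → ∀ a b : Fin n → ℂ,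
      κ₁ * (qf (g Φ z) a * qf (g Φ z) b) ≤ R316.bisec g Φ z a b)
    {v : Fin n → ℂ} (hv : ∑ j, ‖v j‖ ^ 2 = 1) :
    ∃ D : ExtData n (r / 2) (r / 4) (rhoW r c δ C₁) (κ₁ * c₁),
      D.m = Real.log (qf (g Φ 0) v / c) ∧ D.τ = tauW Φ Θ δ := by
  have hr := S.r_pos
  have hc := S.c_pos
  have hC₁ := S.C₁_pos
  have hsc : 0 < Real.sqrt c := Real.sqrt_pos.2 hc
  have hsC : 0 < Real.sqrt C₁ := Real.sqrt_pos.2 hC₁
  have hv0 : v ≠ 0 := by
    rintro rfl
    simp at hv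
  have E := S.envSetting hv0
  have hm := S.isMetric_pull
  have hconn : IsConnected S.mfd.carrier := S.isConnected_ball
  set ρ := rhoW r c δ C₁ with hρdef
  set r₀ := rZero r c with hr₀def
  have hρ : 0 < ρ := rhoW_pos hr hc S.δ_pos hC₁
  have hr₀ : 0 < r₀ := rZero_pos hr hc
  have hr₀1 : r₀ ≤ 1 / 2 := min_le_left _ _
  have hr₀2 : r₀ ≤ Real.sqrt c * r / 16 := min_le_right _ _
  have hρδ : ρ ≤ δ := (min_le_left _ _).trans (by have := S.δ_pos; linarith)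
  have hρ2 : Real.sqrt C₁ * ρ ≤ r₀ := by
    have : ρ ≤ r₀ / Real.sqrt C₁ := min_le_right _ _
    rw [le_div_iff₀ hsC] at this
    linarith
  have hsq : Real.sqrt (c / C₁) = Real.sqrt c / Real.sqrt C₁ := Real.sqrt_div hc.le _
  have hρ3 : ρ ≤ Real.sqrt (c / C₁) * (r / 16) := by
    rw [hsq, div_mul_eq_mul_div, le_div_iff₀ hsC]
    nlinarith
  have hsq0 : 0 < Real.sqrt (c / C₁) := Real.sqrt_pos.2 (div_pos hc hC₁)
  obtain ⟨σ, hσ, hσ0, hσm, hτσ, hσn⟩ := S.exists_sheet hρ hρδ (hρ3.trans (by nlinarith))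
  have hZopen : IsOpen (σ '' Metric.ball 0 ρ) := isOpen_image_of_section S.isOpen_domW S.tau_hol hσ hσm hτσ
  have hZdom : σ '' Metric.ball 0 ρ ⊆ domW Φ Θ r δ := by
    rintro _ ⟨w, hw, rfl⟩; exact hσm hw
  have hσ4 : Set.MapsTo σ (Metric.ball 0 ρ) (Metric.ball 0 (r / 4)) := by
    intro w hw
    have h1 := hσn w hw
    rw [Metric.mem_ball, dist_zero_right] at hw ⊢
    have h2 : Real.sqrt (c / C₁) * ‖σ w‖ < Real.sqrt (c / C₁) * (r / 16) := by linarith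
    have h3 := lt_of_mul_lt_mul_left h2 hsq0.le
    linarith
  have hZU : σ '' Metric.ball 0 ρ ⊆ Metric.ball 0 (r / 2) := by
    rintro _ ⟨w, hw, rfl⟩
    exact Metric.ball_subset_ball (by linarith) (hσ4 hw)
  have hd0 : ∀ w ∈ Metric.ball (0 : CE (Fin n)) ρ, hdist S.mfd (pullF Φ g) 0 (σ w) ≤ r₀ := by
    intro w hw
    have h1 := S.hdist_sheet_le hρδ hσ hσ0 hσm hτσ hw
    rw [Metric.mem_ball, dist_zero_right] at hw
    nlinarith
  have h0B : (0 : CE (Fin n)) ∈ Metric.ball (0 : CE (Fin n)) r := Metric.mem_ball_self hr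
  refine ⟨{ Ψ := env S.mfd (pullF Φ g) (psiW (g Φ) v) r₀
            m := Real.log (qf (g Φ 0) v / c)
            σ := σ
            τ := tauW Φ Θ δ
            Ψ_cont := E.env_continuousOn
            Ψ_psh := E.env_psh (fun y hy => S.psi_levi_nonneg hv0 hy)
            Ψ_le := fun z hz => E.env_le hz (fun y hy => S.psi_le hv hy)
            σ_hol := hσ
            σ_zero := hσ0
            σ_maps := hσ4
            Z_open := hZopen
            τ_hol := S.tau_hol.mono hZdom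
            τ_σ := hτσ
            Ψ_nonneg := ?_
            Ψ_strict := ?_ }, rfl, rfl⟩
  · rintro _ ⟨w, hw, rfl⟩
    have h1 : (0 : CE (Fin n)) ∈ hcball S.mfd (pullF Φ g) (σ w) r₀ :=
      ⟨h0B, by rw [hdist_comm hm]; exact hd0 w hw⟩
    have h2 := E.le_env (hZU ⟨w, hw, rfl⟩) h1
    rwa [S.psi_zero hv0] at h2
  · refine E.env_strict hZopen hZU (κ := κ₁) (u := fun z => κ₁ * c₁ * ‖tauW Φ Θ δ z‖ ^ 2) ?_
      (contDiffOn_normSq_hol hZopen (S.tau_hol.mono hZdom) _) ?_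
    · rintro _ ⟨w, hw, rfl⟩ y hy X
      have hyB : y ∈ Metric.ball (0 : CE (Fin n)) r := hy.1
      have hzB : σ w ∈ Metric.ball (0 : CE (Fin n)) r := (hσm hw).1
      have h1 : hdist S.mfd (pullF Φ g) 0 y ≤ 1 := by
        have := hdist_triangle hm hconn h0B hzB hyB
        have h2 := hd0 w hw
        have h3 := hy.2
        linarith
      exact S.psi_levi_strict hv0 hyB (hκ y hyB h1) X
    · intro z hz X
      have h1 := qf_levi_normSq_hol hZopen (S.tau_hol.mono hZdom) (κ₁ * c₁) hz (WithLp.toLp 2 X)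
      have h2 := S.tau_upper (hZdom hz) (WithLp.toLp 2 X)
      have h3 : qf (levi (fun y => κ₁ * c₁ * ‖tauW Φ Θ δ y‖ ^ 2) z) X
          = κ₁ * c₁ * ‖fderiv ℂ (tauW Φ Θ δ) z (WithLp.toLp 2 X)‖ ^ 2 := h1
      rw [h3]
      have h4 : c₁ * ‖fderiv ℂ (tauW Φ Θ δ) z (WithLp.toLp 2 X)‖ ^ 2 ≤ qf (pullF Φ g id z) X := h2
      nlinarith

end Sit

end sit

/-! ### Lemma 7.3 -/

section main

variable {V : Type} [NormedAddCommGroup V] [NormedSpace ℝ V] [FiniteDimensional ℝ V]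
variable {n : ℕ}
variable {𝓜 : CMfd V (Fin n)} {g : HFam V (Fin n)}

/-- **Lemma 7.3 (static distortion).** -/
theorem st73 : St73 𝓜 g := by
  intro I r c K hr hc hK hKM
  have hm : IsMetric 𝓜 g := I.kahler.toIsMetric
  obtain ⟨o, ho⟩ := I.conn.nonempty
  obtain ⟨R₀, hR₀, hKR⟩ := exists_hcball_of_isCompact hm I.conn ho hK hKM
  have hK' : IsCompact (hcball 𝓜 g o (R₀ + 1)) := I.proper o ho _
  obtain ⟨κ₁, hκ₁, hbis⟩ := exists_bisec_lower I.kahler I.bisec hK' (hcball_subset_carrier _ _ _ _)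
  obtain ⟨δ, c₁, C₁, hδ, hc₁, hC₁, hch⟩ := exists_uniform_charts hm hK hKM
  obtain ⟨Ce, k, hCe, hk, hext⟩ := sd_extension n I.n_pos (r₁ := r / 2) (r₂ := r / 4) (ρ := rhoW r c δ C₁)
    (κ := κ₁ * c₁) (by positivity) (by linarith) (rhoW_pos hr hc hδ hC₁) (by positivity)
  have hsC : 0 < Real.sqrt C₁ := Real.sqrt_pos.2 hC₁
  have hA₀ : 0 < Real.sqrt C₁ * Ce := by positivity
  refine ⟨max (Real.sqrt C₁ * Ce * c ^ (-k)) (2 * k), lt_max_of_lt_right (by positivity), ?_⟩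
  intro Φ hΦ hΦ0 hlow v w hv hw
  obtain ⟨Θ, hΘ, hΘ0, hΘb⟩ := hch (Φ 0) hΦ0
  have S : Sit 𝓜 g r c δ c₁ C₁ Φ Θ :=
    { r_pos := hr, c_pos := hc, δ_pos := hδ, c₁_pos := hc₁, C₁_pos := hC₁, kahler := I.kahler, bisec := I.bisec
      Φ_loc := hΦ, Φ_low := hlow, Θ_hol := hΘ, Θ_zero := hΘ0, Θ_low := fun w hw => (hΘb w hw).1
      Θ_up := fun w hw => (hΘb w hw).2 }
  have h0B : (0 : CE (Fin n)) ∈ Metric.ball (0 : CE (Fin n)) r := Metric.mem_ball_self hr
  have hv1 := sum_normSq_of_unit hv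
  have hw1 := sum_normSq_of_unit hw
  obtain ⟨D, hDm, hDτ⟩ := S.exists_extData hκ₁ (fun z hz hd a b => by
    refine hbis Φ _ hΦ z hz ⟨hΦ.mapsTo hz, ?_⟩ a b
    have h1 := hdist_le_hdist_pullF hΦ hm S.isConnected_ball h0B hz
    have h2 := hdist_triangle hm I.conn ho (hΦ.mapsTo h0B) (hΦ.mapsTo hz)
    have h3 : hdist 𝓜 g o (Φ 0) < R₀ := (hKR hΦ0).2
    linarith) hv1
  have h1 := hext D (WithLp.toLp 2 w)
  rw [hDm, hDτ] at h1
  have h2 : qf (g Φ 0) w ≤ C₁ * ‖fderiv ℂ (tauW Φ Θ δ) 0 (WithLp.toLp 2 w)‖ ^ 2 :=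
    S.qf_le S.zero_mem_domW (WithLp.toLp 2 w)
  have hnw : ‖(WithLp.toLp 2 w : CE (Fin n))‖ = 1 := by
    rw [EuclideanSpace.norm_eq, Real.sqrt_eq_one]
    exact hw1
  rw [hnw, mul_one] at h1
  have ha2 : 0 < qf (g Φ 0) v := by
    have := mul_normSq_le_qf (hlow 0 h0B) v
    rw [hv1, mul_one] at this
    linarith
  refine sd_arith hA₀ hk hc ha2 ?_
  calc Real.sqrt (qf (g Φ 0) w) ≤ Real.sqrt (C₁ * ‖fderiv ℂ (tauW Φ Θ δ) 0 (WithLp.toLp 2 w)‖ ^ 2) :=
        Real.sqrt_le_sqrt h2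
    _ = Real.sqrt C₁ * ‖fderiv ℂ (tauW Φ Θ δ) 0 (WithLp.toLp 2 w)‖ := by
        rw [Real.sqrt_mul hC₁.le, Real.sqrt_sq (norm_nonneg _)]
    _ ≤ Real.sqrt C₁ * (Ce * Real.exp (k * Real.log (qf (g Φ 0) v / c))) :=
        mul_le_mul_of_nonneg_left h1 hsC.le
    _ = Real.sqrt C₁ * Ce * Real.exp (k * Real.log (qf (g Φ 0) v / c)) := by ring

end main

end Claimed.Agent.R316.SD
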